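import Mathlib

/-! The spin-S quantum Heisenberg ferromagnet on the cube {-N..N}^3, free boundary conditions.
Throughout `n = 2S`. -/

namespace Vale.Agent.P361

noncomputable section

open Matrix

/-- The spin `S = n/2`. -/
def spin (n : ℕ) : ℝ := (n : ℝ) / 2

/-- The raising operator in the standard basis `|S⟩, |S-1⟩, ..., |-S⟩`. -/
def raising (n : ℕ) : Matrix (Fin (n + 1)) (Fin (n + 1)) ℂ :=
  Matrix.of fun i j => if (i : ℕ) + 1 = (j : ℕ) then
    ((Real.sqrt ((j : ℕ) * ((n : ℝ) + 1 - (j : ℕ))) : ℝ) : ℂ) else 0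

/-- `spinMat n a`, `a = 0,1,2`, are the spin matrices `S¹, S², S³`. -/
def spinMat (n : ℕ) : Fin 3 → Matrix (Fin (n + 1)) (Fin (n + 1)) ℂ
  | 0 => (2 : ℂ)⁻¹ • (raising n + (raising n)ᴴ)
  | 1 => (2 * Complex.I)⁻¹ • (raising n - (raising n)ᴴ)
  | 2 => Matrix.diagonal fun i => ((spin n - (i : ℕ) : ℝ) : ℂ)

/-- Sites of the cube `{-N,...,N}^3`, translated to `{0,...,2N}^3`. -/
abbrev Site (N : ℕ) := Fin 3 → Fin (2 * N + 1)

/-- Basis configurations of the tensor product over the sites. -/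
abbrev Config (V : Type) (n : ℕ) := V → Fin (n + 1)

/-- The operator acting as `a` at site `x` and as the identity elsewhere. -/
def siteOp {V : Type} [Fintype V] [DecidableEq V] {n : ℕ} {R : Type} [Zero R] (x : V)
    (a : Matrix (Fin (n + 1)) (Fin (n + 1)) R) : Matrix (Config V n) (Config V n) R :=
  Matrix.of fun σ τ => if ∀ y, y ≠ x → σ y = τ y then a (σ x) (τ x) else 0

/-- The ℓ¹ distance of two sites. -/
def dist1 {N : ℕ} (x y : Site N) : ℕ := ∑ j, ((x j : ℤ) - (y j : ℤ)).natAbs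

/-- `H_N = - Σ over nearest-neighbour edges, each once, of S_x · S_y`
(half of the sum over ordered pairs). -/
def hamiltonian (n N : ℕ) : Matrix (Config (Site N) n) (Config (Site N) n) ℂ :=
  -((2 : ℂ)⁻¹ • ∑ x : Site N, ∑ y : Site N,
    if dist1 x y = 1 then ∑ a : Fin 3, siteOp x (spinMat n a) * siteOp y (spinMat n a) else 0)

/-- `M_N = Σ_x S³_x`. -/
def magnetization (n N : ℕ) : Matrix (Config (Site N) n) (Config (Site N) n) ℂ :=
  ∑ x : Site N, siteOp x (spinMat n 2)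

/-- The finite-volume pressure `(β |Λ_N|)⁻¹ log Tr exp (-β (H_N - h M_N))`. -/
def pressure (n N : ℕ) (β h : ℝ) : ℝ :=
  Real.log (Matrix.trace (NormedSpace.exp
      ((-(β : ℂ)) • (hamiltonian n N - (h : ℂ) • magnetization n N)))).re
    / (β * (Fintype.card (Site N) : ℝ))

/-- Bloch's constant `ζ(3/2) / (8 π^{3/2} S^{3/2})`. -/
def blochConst (n : ℕ) : ℝ :=
  (riemannZeta (3 / 2)).re / (8 * Real.pi ^ (3 / 2 : ℝ) * spin n ^ (3 / 2 : ℝ))

end

end Vale.Agent.P361
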