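import Mathlib

/-! Gibbs averages of real symmetric matrices: Peierls inequality, Peierls–Bogoliubov,
and a Bogoliubov-type inequality from the log-sum inequality. -/

namespace Vale.Agent.P361

noncomputable section

open Matrix
open scoped BigOperators

variable {ι : Type} [Fintype ι] [DecidableEq ι]

/-- Trace of the exponential. -/
def ztr (A : Matrix ι ι ℝ) : ℝ := trace (NormedSpace.exp A)

/-- Gibbs average. -/
def avg (A O : Matrix ι ι ℝ) : ℝ := trace (NormedSpace.exp A * O) / ztr A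

theorem exists_diag (A : Matrix ι ι ℝ) (hA : A.IsSymm) :
    ∃ (U : Matrix ι ι ℝ) (e : ι → ℝ), Uᵀ * U = 1 ∧ U * Uᵀ = 1 ∧ A = U * diagonal e * Uᵀ ∧
      NormedSpace.exp A = U * diagonal (fun i => Real.exp (e i)) * Uᵀ := by
  have hH : A.IsHermitian := by
    rw [Matrix.IsHermitian, conjTranspose_eq_transpose_of_trivial]
    exact hA
  set U : Matrix ι ι ℝ := (hH.eigenvectorUnitary : Matrix ι ι ℝ) with hU
  have h1 : Uᵀ * U = 1 := by
    have := (Matrix.mem_unitaryGroup_iff' (A := U)).1 hH.eigenvectorUnitary.2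
    simpa [star_eq_conjTranspose, conjTranspose_eq_transpose_of_trivial] using this
  have h2 : U * Uᵀ = 1 := mul_eq_one_comm.1 h1
  have hs : A = U * diagonal hH.eigenvalues * Uᵀ := by
    have := hH.spectral_theorem
    rw [Unitary.conjStarAlgAut_apply] at this
    simpa [star_eq_conjTranspose, conjTranspose_eq_transpose_of_trivial, hU] using this
  refine ⟨U, hH.eigenvalues, h1, h2, hs, ?_⟩
  have hinv : U⁻¹ = Uᵀ := Matrix.inv_eq_right_inv h2
  have hunit : IsUnit U := IsUnit.of_mul_eq_one Uᵀ h2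
  conv_lhs => rw [hs, ← hinv, Matrix.exp_conj U _ hunit, Matrix.exp_diagonal, hinv]
  congr 3
  funext i
  rw [Pi.coe_exp, Real.exp_eq_exp_ℝ]

theorem trace_conj_diag_mul (U : Matrix ι ι ℝ) (d : ι → ℝ) (O : Matrix ι ι ℝ) :
    trace (U * diagonal d * Uᵀ * O) = ∑ i, d i * (Uᵀ * O * U) i i := by
  rw [Matrix.mul_assoc, Matrix.mul_assoc, Matrix.trace_mul_comm, Matrix.mul_assoc,
    Matrix.trace]
  simp [Matrix.diag, Matrix.diagonal_mul, Matrix.mul_assoc]

theorem ztr_eq_sum {A U : Matrix ι ι ℝ} {e : ι → ℝ} (h1 : Uᵀ * U = 1)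
    (hexp : NormedSpace.exp A = U * diagonal (fun i => Real.exp (e i)) * Uᵀ) :
    ztr A = ∑ i, Real.exp (e i) := by
  have := trace_conj_diag_mul U (fun i => Real.exp (e i)) 1
  rw [Matrix.mul_one, Matrix.mul_one, h1] at this
  simpa [ztr, hexp] using this

theorem ztr_pos [Nonempty ι] {A : Matrix ι ι ℝ} (hA : A.IsSymm) : 0 < ztr A := by
  obtain ⟨U, e, h1, h2, -, hexp⟩ := exists_diag A hA
  rw [ztr_eq_sum h1 hexp]
  exact Finset.sum_pos (fun i _ => Real.exp_pos _) Finset.univ_nonempty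

theorem avg_add (A O P : Matrix ι ι ℝ) : avg A (O + P) = avg A O + avg A P := by
  simp [avg, Matrix.mul_add, add_div]

theorem avg_sub (A O P : Matrix ι ι ℝ) : avg A (O - P) = avg A O - avg A P := by
  simp [avg, Matrix.mul_sub, sub_div]

theorem avg_smul (A O : Matrix ι ι ℝ) (c : ℝ) : avg A (c • O) = c * avg A O := by
  simp [avg, mul_div_assoc]

theorem avg_neg (A O : Matrix ι ι ℝ) : avg A (-O) = - avg A O := by
  simp [avg, neg_div]

theorem avg_zero (A : Matrix ι ι ℝ) : avg A 0 = 0 := by simp [avg]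

theorem avg_sum {κ : Type} (s : Finset κ) (A : Matrix ι ι ℝ) (O : κ → Matrix ι ι ℝ) :
    avg A (∑ k ∈ s, O k) = ∑ k ∈ s, avg A (O k) := by
  simp [avg, Matrix.mul_sum, Finset.sum_div]

theorem avg_transpose {A : Matrix ι ι ℝ} (hA : A.IsSymm) (O : Matrix ι ι ℝ) :
    avg A Oᵀ = avg A O := by
  unfold avg
  congr 1
  rw [← Matrix.trace_transpose, Matrix.transpose_mul, Matrix.transpose_transpose,
    ← Matrix.exp_transpose, hA.eq, Matrix.trace_mul_comm]

/-- Peierls inequality. -/
theorem peierls {B U : Matrix ι ι ℝ} (hB : B.IsSymm) (h1 : Uᵀ * U = 1) :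
    ∑ i, Real.exp ((Uᵀ * B * U) i i) ≤ ztr B := by
  obtain ⟨W, b, w1, w2, hWB, hexp⟩ := exists_diag B hB
  rw [ztr_eq_sum w1 hexp]
  have hUU : U * Uᵀ = 1 := mul_eq_one_comm.1 h1
  set V := Uᵀ * W with hV
  have hV1 : V * Vᵀ = 1 := by
    rw [hV, Matrix.transpose_mul, Matrix.transpose_transpose, Matrix.mul_assoc,
      ← Matrix.mul_assoc W, w2, Matrix.one_mul, h1]
  have hV2 : Vᵀ * V = 1 := mul_eq_one_comm.1 hV1
  have hdiag : ∀ i, (Uᵀ * B * U) i i = ∑ j, V i j ^ 2 * b j := by
    intro i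
    have : Uᵀ * B * U = V * diagonal b * Vᵀ := by
      rw [hWB, hV, Matrix.transpose_mul, Matrix.transpose_transpose]
      simp only [Matrix.mul_assoc]
    rw [this, Matrix.mul_apply]
    refine Finset.sum_congr rfl fun j _ => ?_
    rw [Matrix.mul_diagonal, Matrix.transpose_apply]
    ring
  have hrow : ∀ i, ∑ j, V i j ^ 2 = 1 := by
    intro i
    have := congrFun (congrFun hV1 i) i
    simpa [Matrix.mul_apply, sq] using this
  have hcol : ∀ j, ∑ i, V i j ^ 2 = 1 := by
    intro j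
    have := congrFun (congrFun hV2 j) j
    simpa [Matrix.mul_apply, sq] using this
  calc ∑ i, Real.exp ((Uᵀ * B * U) i i)
      ≤ ∑ i, ∑ j, V i j ^ 2 * Real.exp (b j) := by
        refine Finset.sum_le_sum fun i _ => ?_
        rw [hdiag i]
        have := convexOn_exp.map_sum_le (t := Finset.univ) (w := fun j => V i j ^ 2) (p := b)
          (fun j _ => sq_nonneg _) (hrow i) (fun j _ => Set.mem_univ _)
        simpa [smul_eq_mul] using this
    _ = ∑ j, Real.exp (b j) := by
        rw [Finset.sum_comm]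
        refine Finset.sum_congr rfl fun j _ => ?_
        rw [← Finset.sum_mul, hcol, one_mul]

/-- Peierls–Bogoliubov inequality. -/
theorem peierls_bogoliubov [Nonempty ι] {A B : Matrix ι ι ℝ} (hA : A.IsSymm) (hB : B.IsSymm) :
    Real.log (ztr A) + avg A (B - A) ≤ Real.log (ztr B) := by
  obtain ⟨U, e, h1, h2, hUA, hexp⟩ := exists_diag A hA
  have hZ := ztr_eq_sum h1 hexp
  have hZpos := ztr_pos hA
  set d : ι → ℝ := fun i => (Uᵀ * (B - A) * U) i i with hd
  have hBd : ∀ i, (Uᵀ * B * U) i i = e i + d i := by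
    intro i
    have hAd : Uᵀ * A * U = diagonal e := by
      rw [hUA]
      simp only [Matrix.mul_assoc]
      rw [h1, Matrix.mul_one, ← Matrix.mul_assoc, h1, Matrix.one_mul]
    simp [hd, Matrix.mul_sub, Matrix.sub_mul, hAd]
  have hav : avg A (B - A) = ∑ i, Real.exp (e i) / ztr A * d i := by
    rw [avg, hexp, trace_conj_diag_mul, Finset.sum_div]
    exact Finset.sum_congr rfl fun i _ => by ring
  have hw : ∑ i, Real.exp (e i) / ztr A = 1 := by
    rw [← Finset.sum_div, ← hZ, div_self hZpos.ne']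
  have hj : Real.exp (avg A (B - A)) ≤ ∑ i, Real.exp (e i) / ztr A * Real.exp (d i) := by
    rw [hav]
    have := convexOn_exp.map_sum_le (t := Finset.univ) (w := fun i => Real.exp (e i) / ztr A)
      (p := d) (fun j _ => by positivity) hw (fun j _ => Set.mem_univ _)
    simpa [smul_eq_mul] using this
  have key : ztr A * Real.exp (avg A (B - A)) ≤ ztr B := by
    refine le_trans ?_ (peierls hB h1)
    calc ztr A * Real.exp (avg A (B - A))
        ≤ ztr A * ∑ i, Real.exp (e i) / ztr A * Real.exp (d i) :=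
          mul_le_mul_of_nonneg_left hj hZpos.le
      _ = ∑ i, Real.exp ((Uᵀ * B * U) i i) := by
          rw [Finset.mul_sum]
          refine Finset.sum_congr rfl fun i _ => ?_
          rw [hBd i, Real.exp_add]
          field_simp
  have := Real.log_le_log (by positivity) key
  rwa [Real.log_mul hZpos.ne' (Real.exp_pos _).ne', Real.log_exp] at this

/-- A pairwise bound: `avg A O` is bounded through diagonal density entries. -/
theorem avg_le_of_hop [Nonempty ι] {A : Matrix ι ι ℝ} (hA : A.IsSymm) {O r : Matrix ι ι ℝ}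
    (hr : ∀ a b, O a b ≠ 0 → 0 < r a b) :
    avg A O ≤ ∑ a, ∑ b, |O a b| * (r a b * (NormedSpace.exp A a a / ztr A)
      + (NormedSpace.exp A b b / ztr A) / r a b) / 2 := by
  obtain ⟨U, e, h1, h2, -, hexp⟩ := exists_diag A hA
  have hent : ∀ a b, NormedSpace.exp A a b = ∑ i, Real.exp (e i) * (U a i * U b i) := by
    intro a b
    rw [hexp, Matrix.mul_apply]
    refine Finset.sum_congr rfl fun i _ => ?_
    rw [Matrix.mul_diagonal, Matrix.transpose_apply]
    ring
  have hZ := ztr_pos hA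
  have htr : trace (NormedSpace.exp A * O) = ∑ a, ∑ b, NormedSpace.exp A b a * O a b := by
    simp only [Matrix.trace, Matrix.diag, Matrix.mul_apply]
    exact Finset.sum_comm
  rw [avg, htr, Finset.sum_div]
  refine Finset.sum_le_sum fun a _ => ?_
  rw [Finset.sum_div]
  refine Finset.sum_le_sum fun b _ => ?_
  by_cases hO : O a b = 0
  · simp [hO]
  have r0 := hr a b hO
  have habs : |NormedSpace.exp A b a| ≤
      (r a b * NormedSpace.exp A a a + NormedSpace.exp A b b / r a b) / 2 := by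
    rw [hent, hent, hent]
    refine (Finset.abs_sum_le_sum_abs _ _).trans ?_
    rw [Finset.mul_sum, Finset.sum_div, ← Finset.sum_add_distrib, Finset.sum_div]
    refine Finset.sum_le_sum fun i _ => ?_
    rw [abs_mul, Real.abs_exp]
    have hx : |U b i * U a i| ≤ (r a b * (U a i * U a i) + (U b i * U b i) / r a b) / 2 := by
      have h0 : (r a b * (U a i * U a i) + (U b i * U b i) / r a b) / 2
          = (r a b ^ 2 * (U a i) ^ 2 + (U b i) ^ 2) / (2 * r a b) := by field_simp
      rw [h0, abs_le]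
      constructor
      · rw [neg_le, le_div_iff₀ (by positivity)]
        nlinarith [sq_nonneg (r a b * U a i + U b i)]
      · rw [le_div_iff₀ (by positivity)]
        nlinarith [sq_nonneg (r a b * U a i - U b i)]
    calc Real.exp (e i) * |U b i * U a i|
        ≤ Real.exp (e i) * ((r a b * (U a i * U a i) + (U b i * U b i) / r a b) / 2) :=
          mul_le_mul_of_nonneg_left hx (Real.exp_pos _).le
      _ = _ := by ring
  calc NormedSpace.exp A b a * O a b / ztr A
      ≤ |NormedSpace.exp A b a| * |O a b| / ztr A := by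
        refine div_le_div_of_nonneg_right ?_ hZ.le
        rw [← abs_mul]
        exact le_abs_self _
    _ ≤ (r a b * NormedSpace.exp A a a + NormedSpace.exp A b b / r a b) / 2 * |O a b| / ztr A :=
        div_le_div_of_nonneg_right (mul_le_mul_of_nonneg_right habs (abs_nonneg _)) hZ.le
    _ = _ := by ring

theorem sum_diag_density [Nonempty ι] {A : Matrix ι ι ℝ} (hA : A.IsSymm) :
    ∑ a, NormedSpace.exp A a a / ztr A = 1 := by
  rw [← Finset.sum_div]
  exact div_self (ztr_pos hA).ne'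

theorem diag_density_nonneg [Nonempty ι] {A : Matrix ι ι ℝ} (hA : A.IsSymm) (a : ι) :
    0 ≤ NormedSpace.exp A a a / ztr A := by
  obtain ⟨U, e, h1, h2, -, hexp⟩ := exists_diag A hA
  refine div_nonneg ?_ (ztr_pos hA).le
  rw [hexp, Matrix.mul_apply]
  refine Finset.sum_nonneg fun i _ => ?_
  rw [Matrix.mul_diagonal, Matrix.transpose_apply]
  nlinarith [Real.exp_pos (e i), mul_self_nonneg (U a i)]

theorem avg_diagonal (A : Matrix ι ι ℝ) (d : ι → ℝ) :
    avg A (diagonal d) = ∑ a, NormedSpace.exp A a a / ztr A * d a := by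
  rw [avg, Matrix.trace, Finset.sum_div]
  refine Finset.sum_congr rfl fun a _ => ?_
  rw [Matrix.diag, Matrix.mul_diagonal]
  ring

theorem mul_log_sum_ge {γ : Type} [Fintype γ] {a p q : γ → ℝ} (ha : ∀ x, 0 ≤ a x)
    (hp : ∀ x, 0 < p x) (hq : ∀ x, 0 < q x) (hX : 0 < ∑ x, a x * p x) :
    (∑ x, a x * p x) * (Real.log (∑ x, a x * p x) - Real.log (∑ x, a x * q x))
      ≤ ∑ x, a x * (p x * (Real.log (p x) - Real.log (q x))) := by
  set X := ∑ x, a x * p x with hXd
  set Y := ∑ x, a x * q x with hYd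
  have hY : 0 < Y := by
    obtain ⟨x, -, hx⟩ := Finset.exists_ne_zero_of_sum_ne_zero hX.ne'
    refine Finset.sum_pos' (fun y _ => mul_nonneg (ha y) (hq y).le) ⟨x, Finset.mem_univ _, ?_⟩
    exact mul_pos (lt_of_le_of_ne (ha x) fun h => hx (by rw [← h, zero_mul])) (hq x)
  have h : ∀ x, a x * (p x * (Real.log X - Real.log Y)) + (a x * p x - X / Y * (a x * q x))
      ≤ a x * (p x * (Real.log (p x) - Real.log (q x))) := by
    intro x
    have hl := Real.one_sub_inv_le_log_of_pos (x := p x * Y / (q x * X))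
      (by have := hp x; have := hq x; positivity)
    rw [Real.log_div (by have := hp x; positivity) (by have := hq x; positivity),
      Real.log_mul (hp x).ne' hY.ne', Real.log_mul (hq x).ne' hX.ne', inv_div] at hl
    have h2 := mul_le_mul_of_nonneg_left hl (mul_nonneg (ha x) (hp x).le)
    have h3 : a x * p x * (1 - q x * X / (p x * Y)) = a x * p x - X / Y * (a x * q x) := by
      have := hp x; field_simp
    rw [h3] at h2
    nlinarith [h2]
  calc X * (Real.log X - Real.log Y)
      = ∑ x, (a x * (p x * (Real.log X - Real.log Y)) + (a x * p x - X / Y * (a x * q x))) := by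
        rw [Finset.sum_add_distrib, Finset.sum_sub_distrib, ← Finset.mul_sum, ← hXd, ← hYd,
          div_mul_cancel₀ _ hY.ne', sub_self, add_zero, hXd, Finset.sum_mul]
        exact Finset.sum_congr rfl fun x _ => by ring
    _ ≤ _ := Finset.sum_le_sum fun x _ => h x

/-- A Bogoliubov-type inequality. -/
theorem bogoliubov [Nonempty ι] {κ : Type} [Fintype κ] {A : Matrix ι ι ℝ} (hA : A.IsSymm)
    (T : κ → Matrix ι ι ℝ) (hXY : ∑ k, avg A ((T k)ᵀ * T k) < ∑ k, avg A (T k * (T k)ᵀ)) :
    ∃ X Y D : ℝ, X = ∑ k, avg A (T k * (T k)ᵀ) ∧ Y = ∑ k, avg A ((T k)ᵀ * T k) ∧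
      D = -∑ k, avg A (T k * (A * (T k)ᵀ - (T k)ᵀ * A) - (A * (T k)ᵀ - (T k)ᵀ * A) * T k) ∧
      0 < D ∧ (X - Y) / (Real.exp (D / (X - Y)) - 1) ≤ Y := by
  obtain ⟨U, e, h1, h2, hUA, hexp⟩ := exists_diag A hA
  refine ⟨_, _, _, rfl, rfl, rfl, ?_⟩
  set Z := ztr A with hZd
  have hZ : 0 < Z := ztr_pos hA
  set p : ι → ℝ := fun i => Real.exp (e i) / Z with hpd
  have hp : ∀ i, 0 < p i := fun i => div_pos (Real.exp_pos _) hZ
  set C : κ → Matrix ι ι ℝ := fun k => Uᵀ * T k * U with hC
  have hav : ∀ O, avg A O = ∑ i, p i * (Uᵀ * O * U) i i := by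
    intro O
    rw [avg, hexp, trace_conj_diag_mul, Finset.sum_div]
    exact Finset.sum_congr rfl fun i _ => by rw [hpd]; ring
  have hmul : ∀ P Q : Matrix ι ι ℝ, Uᵀ * (P * Q) * U = (Uᵀ * P * U) * (Uᵀ * Q * U) := by
    intro P Q
    have : (Uᵀ * P * U) * (Uᵀ * Q * U) = Uᵀ * P * (U * Uᵀ) * Q * U := by
      simp only [Matrix.mul_assoc]
    rw [this, h2, Matrix.mul_one, Matrix.mul_assoc Uᵀ P Q]
  have hCt : ∀ k, Uᵀ * (T k)ᵀ * U = (C k)ᵀ := by
    intro k
    simp [hC, Matrix.transpose_mul, Matrix.mul_assoc]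
  have hAd : Uᵀ * A * U = diagonal e := by
    rw [hUA]
    simp only [Matrix.mul_assoc]
    rw [h1, Matrix.mul_one, ← Matrix.mul_assoc, h1, Matrix.one_mul]
  let a : κ × ι × ι → ℝ := fun x => C x.1 x.2.1 x.2.2 ^ 2
  let u : κ × ι × ι → ℝ := fun x => p x.2.1
  let v : κ × ι × ι → ℝ := fun x => p x.2.2
  have hX : ∑ k, avg A (T k * (T k)ᵀ) = ∑ x, a x * u x := by
    simp only [a, u, Fintype.sum_prod_type]
    refine Finset.sum_congr rfl fun k _ => ?_
    rw [hav, hmul, hCt]
    refine Finset.sum_congr rfl fun i _ => ?_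
    rw [Matrix.mul_apply, Finset.mul_sum]
    refine Finset.sum_congr rfl fun j _ => ?_
    rw [Matrix.transpose_apply]; ring
  have hY : ∑ k, avg A ((T k)ᵀ * T k) = ∑ x, a x * v x := by
    simp only [a, v, Fintype.sum_prod_type]
    refine Finset.sum_congr rfl fun k _ => ?_
    rw [hav, hmul, hCt, Finset.sum_comm]
    refine Finset.sum_congr rfl fun i _ => ?_
    rw [Matrix.mul_apply, Finset.mul_sum]
    refine Finset.sum_congr rfl fun j _ => ?_
    rw [Matrix.transpose_apply]; ring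
  have hD : -∑ k, avg A (T k * (A * (T k)ᵀ - (T k)ᵀ * A) - (A * (T k)ᵀ - (T k)ᵀ * A) * T k)
      = ∑ x, a x * ((u x - v x) * (Real.log (u x) - Real.log (v x))) := by
    simp only [a, u, v, Fintype.sum_prod_type]
    rw [← Finset.sum_neg_distrib]
    refine Finset.sum_congr rfl fun k _ => ?_
    have hlog : ∀ i, Real.log (p i) = e i - Real.log Z := fun i => by
      rw [hpd, Real.log_div (Real.exp_pos _).ne' hZ.ne', Real.log_exp]
    rw [avg_sub, hav, hav, hmul, hmul]
    rw [show Uᵀ * (A * (T k)ᵀ - (T k)ᵀ * A) * U = diagonal e * (C k)ᵀ - (C k)ᵀ * diagonal e by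
      rw [Matrix.mul_sub, Matrix.sub_mul, hmul, hmul, hAd, hCt]]
    have e1 : ∑ i, p i * ((C k) * (diagonal e * (C k)ᵀ - (C k)ᵀ * diagonal e)) i i
        = ∑ i, ∑ j, p i * ((e j - e i) * C k i j ^ 2) := by
      refine Finset.sum_congr rfl fun i _ => ?_
      rw [Matrix.mul_apply, Finset.mul_sum]
      refine Finset.sum_congr rfl fun j _ => ?_
      rw [Matrix.sub_apply, Matrix.diagonal_mul, Matrix.mul_diagonal, Matrix.transpose_apply]
      ring
    have e2 : ∑ j, p j * ((diagonal e * (C k)ᵀ - (C k)ᵀ * diagonal e) * C k) j j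
        = ∑ i, ∑ j, p j * ((e j - e i) * C k i j ^ 2) := by
      rw [Finset.sum_comm]
      refine Finset.sum_congr rfl fun i _ => ?_
      rw [Matrix.mul_apply, Finset.mul_sum]
      refine Finset.sum_congr rfl fun j _ => ?_
      rw [Matrix.sub_apply, Matrix.diagonal_mul, Matrix.mul_diagonal, Matrix.transpose_apply]
      ring
    rw [show (C k) = Uᵀ * T k * U from rfl] at e1 e2 ⊢
    rw [e1, e2, ← Finset.sum_sub_distrib, ← Finset.sum_neg_distrib]
    refine Finset.sum_congr rfl fun i _ => ?_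
    rw [← Finset.sum_sub_distrib, ← Finset.sum_neg_distrib]
    refine Finset.sum_congr rfl fun j _ => ?_
    rw [hlog, hlog]; ring
  rw [hX, hY, hD]
  rw [hX, hY] at hXY
  set X := ∑ x, a x * u x
  set Y := ∑ x, a x * v x
  set D := ∑ x, a x * ((u x - v x) * (Real.log (u x) - Real.log (v x))) with hDd
  have ha : ∀ x, 0 ≤ a x := fun x => sq_nonneg _
  have hu : ∀ x, 0 < u x := fun x => hp _
  have hv : ∀ x, 0 < v x := fun x => hp _
  have hY0 : 0 ≤ Y := Finset.sum_nonneg fun x _ => mul_nonneg (ha x) (hv x).le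
  have hXpos : 0 < X := lt_of_le_of_lt hY0 hXY
  have hYpos : 0 < Y := by
    obtain ⟨x, -, hx⟩ := Finset.exists_ne_zero_of_sum_ne_zero hXpos.ne'
    refine Finset.sum_pos' (fun y _ => mul_nonneg (ha y) (hv y).le) ⟨x, Finset.mem_univ _, ?_⟩
    exact mul_pos (lt_of_le_of_ne (ha x) fun h => hx (by rw [← h, zero_mul])) (hv x)
  have g1 := mul_log_sum_ge ha hu hv hXpos
  have g2 := mul_log_sum_ge ha hv hu hYpos
  have key : (X - Y) * (Real.log X - Real.log Y) ≤ D := by
    have : D = ∑ x, a x * (u x * (Real.log (u x) - Real.log (v x)))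
        + ∑ x, a x * (v x * (Real.log (v x) - Real.log (u x))) := by
      rw [hDd, ← Finset.sum_add_distrib]
      exact Finset.sum_congr rfl fun x _ => by ring
    rw [this]
    linarith
  have hd : 0 < X - Y := sub_pos.2 hXY
  have hlogpos : 0 < Real.log X - Real.log Y := sub_pos.2 (Real.log_lt_log hYpos hXY)
  have hDpos : 0 < D := lt_of_lt_of_le (mul_pos hd hlogpos) key
  refine ⟨hDpos, ?_⟩
  have h3 : X / Y ≤ Real.exp (D / (X - Y)) := by
    rw [← Real.log_le_iff_le_exp (div_pos hXpos hYpos), Real.log_div hXpos.ne' hYpos.ne',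
      le_div_iff₀ hd]
    linarith
  have h4 : 0 < Real.exp (D / (X - Y)) - 1 := sub_pos.2 (Real.one_lt_exp_iff.2 (div_pos hDpos hd))
  rw [div_le_iff₀ h4]
  rw [div_le_iff₀ hYpos] at h3
  linarith

end

end Vale.Agent.P361
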