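import Mathlib
import Vale.Agent.P361.Defs
import Vale.Agent.P361.Gibbs

/-! Real form of the spin operators on a finite set of sites, and the spin-wave bound. -/

namespace Vale.Agent.P361

noncomputable section

open Matrix
open scoped BigOperators

variable {V : Type} [Fintype V] [DecidableEq V] {n : ℕ}

section site

variable {R : Type} [CommRing R]

theorem siteOp_mul (x : V) (a b : Matrix (Fin (n + 1)) (Fin (n + 1)) R) :
    siteOp x a * siteOp x b = siteOp x (a * b) := by
  ext σ τ
  by_cases h : ∀ z, z ≠ x → σ z = τ z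
  · rw [Matrix.mul_apply]
    have : ∀ ρ : Config V n, siteOp x a σ ρ * siteOp x b ρ τ =
        if ρ = Function.update σ x (ρ x) then a (σ x) (ρ x) * b (ρ x) (τ x) else 0 := by
      intro ρ
      by_cases hρ : ρ = Function.update σ x (ρ x)
      · have h1 : ∀ z, z ≠ x → σ z = ρ z := by
          intro z hz; rw [hρ, Function.update_of_ne hz]
        have h2 : ∀ z, z ≠ x → ρ z = τ z := fun z hz => (h1 z hz).symm.trans (h z hz)
        rw [if_pos hρ]
        simp only [siteOp, Matrix.of_apply]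
        rw [if_pos h1, if_pos h2]
      · rw [if_neg hρ]
        have : ¬ ∀ z, z ≠ x → σ z = ρ z := by
          intro h1; apply hρ; funext z
          by_cases hz : z = x
          · subst hz; simp
          · rw [Function.update_of_ne hz, h1 z hz]
        simp only [siteOp, Matrix.of_apply]
        rw [if_neg this, zero_mul]
    simp_rw [this, ← Finset.sum_filter]
    simp only [siteOp, Matrix.of_apply]
    rw [if_pos h, Matrix.mul_apply]
    refine Finset.sum_nbij' (fun ρ => ρ x) (fun k => Function.update σ x k) ?_ ?_ ?_ ?_ ?_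
    · intro ρ _; simp
    · intro k _; simp
    · intro ρ hρ; simp at hρ; exact hρ.symm
    · intro k _; simp
    · intro ρ _; rfl
  · rw [Matrix.mul_apply]
    have hr : siteOp x (a * b) σ τ = 0 := by
      simp only [siteOp, Matrix.of_apply]
      exact if_neg h
    rw [hr]
    refine Finset.sum_eq_zero fun ρ _ => ?_
    simp only [siteOp, Matrix.of_apply]
    by_cases h1 : ∀ z, z ≠ x → σ z = ρ z
    · rw [if_neg (c := ∀ z, z ≠ x → ρ z = τ z) fun h2 => h fun z hz => (h1 z hz).trans (h2 z hz),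
        mul_zero]
    · rw [if_neg h1, zero_mul]

theorem siteOp_mul_ne {x y : V} (hxy : x ≠ y) (a b : Matrix (Fin (n + 1)) (Fin (n + 1)) R)
    (σ τ : Config V n) :
    (siteOp x a * siteOp y b) σ τ =
      if ∀ z, z ≠ x → z ≠ y → σ z = τ z then a (σ x) (τ x) * b (σ y) (τ y) else 0 := by
  rw [Matrix.mul_apply]
  simp only [siteOp, Matrix.of_apply]
  by_cases h : ∀ z, z ≠ x → z ≠ y → σ z = τ z
  · rw [if_pos h, Finset.sum_eq_single (Function.update σ x (τ x))]
    · rw [if_pos, if_pos]
      · simp [Function.update_of_ne hxy.symm]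
      · intro z hz
        by_cases hzx : z = x
        · subst hzx; simp
        · rw [Function.update_of_ne hzx, h z hzx hz]
      · intro z hz; rw [Function.update_of_ne hz]
    · intro ρ _ hρ
      by_cases h1 : ∀ z, z ≠ x → σ z = ρ z
      · rw [if_neg (c := ∀ z, z ≠ y → ρ z = τ z), mul_zero]
        intro h2; apply hρ; funext z
        by_cases hz : z = x
        · subst hz; simp [h2 z hxy]
        · rw [Function.update_of_ne hz, h1 z hz]
      · rw [if_neg h1, zero_mul]
    · simp
  · rw [if_neg h]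
    refine Finset.sum_eq_zero fun ρ _ => ?_
    by_cases h1 : ∀ z, z ≠ x → σ z = ρ z
    · rw [if_neg (c := ∀ z, z ≠ y → ρ z = τ z)
        fun h2 => h fun z hzx hzy => (h1 z hzx).trans (h2 z hzy), mul_zero]
    · rw [if_neg h1, zero_mul]

theorem siteOp_comm {x y : V} (hxy : x ≠ y) (a b : Matrix (Fin (n + 1)) (Fin (n + 1)) R) :
    siteOp x a * siteOp y b = siteOp y b * siteOp x a := by
  ext σ τ
  rw [siteOp_mul_ne hxy, siteOp_mul_ne hxy.symm]
  exact if_congr ⟨fun h z h1 h2 => h z h2 h1, fun h z h1 h2 => h z h2 h1⟩ (mul_comm _ _) rfl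

theorem siteOp_add (x : V) (a b : Matrix (Fin (n + 1)) (Fin (n + 1)) R) :
    siteOp x (a + b) = siteOp x a + siteOp x b := by
  ext σ τ
  simp only [siteOp, Matrix.of_apply, Matrix.add_apply]
  split_ifs <;> simp

theorem siteOp_smul (x : V) (c : R) (a : Matrix (Fin (n + 1)) (Fin (n + 1)) R) :
    siteOp x (c • a) = c • siteOp x a := by
  ext σ τ
  simp [siteOp]

theorem siteOp_neg (x : V) (a : Matrix (Fin (n + 1)) (Fin (n + 1)) R) :
    siteOp x (-a) = - siteOp x a := by
  ext σ τ
  simp only [siteOp, Matrix.of_apply, Matrix.neg_apply]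
  split_ifs <;> simp

theorem siteOp_sub (x : V) (a b : Matrix (Fin (n + 1)) (Fin (n + 1)) R) :
    siteOp x (a - b) = siteOp x a - siteOp x b := by
  rw [sub_eq_add_neg, siteOp_add, siteOp_neg, ← sub_eq_add_neg]

theorem siteOp_transpose (x : V) (a : Matrix (Fin (n + 1)) (Fin (n + 1)) R) :
    (siteOp x a)ᵀ = siteOp x aᵀ := by
  ext σ τ
  simp only [siteOp, Matrix.of_apply, Matrix.transpose_apply]
  exact if_congr ⟨fun h z hz => (h z hz).symm, fun h z hz => (h z hz).symm⟩ rfl rfl

theorem siteOp_diagonal (x : V) (d : Fin (n + 1) → R) :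
    siteOp x (diagonal d) = diagonal fun σ : Config V n => d (σ x) := by
  ext σ τ
  simp only [siteOp, Matrix.of_apply]
  by_cases h : σ = τ
  · subst h; simp
  · rw [Matrix.diagonal_apply_ne _ h]
    split_ifs with h1
    · refine Matrix.diagonal_apply_ne _ fun h2 => h ?_
      funext z
      by_cases hz : z = x
      · subst hz; exact h2
      · exact h1 z hz
    · rfl

end site

/-- Real raising matrix. -/
def sP (n : ℕ) : Matrix (Fin (n + 1)) (Fin (n + 1)) ℝ :=
  Matrix.of fun i j => if (i : ℕ) + 1 = (j : ℕ) then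
    Real.sqrt ((j : ℕ) * ((n : ℝ) + 1 - (j : ℕ))) else 0

/-- Real third spin matrix. -/
def sZ (n : ℕ) : Matrix (Fin (n + 1)) (Fin (n + 1)) ℝ :=
  diagonal fun i => spin n - (i : ℕ)

/-- Raising operator at a site. -/
def P (n : ℕ) (x : V) : Matrix (Config V n) (Config V n) ℝ := siteOp x (sP n)

/-- Lowering operator at a site. -/
def Q (n : ℕ) (x : V) : Matrix (Config V n) (Config V n) ℝ := siteOp x (sP n)ᵀ

/-- Third spin component at a site. -/
def Zop (n : ℕ) (x : V) : Matrix (Config V n) (Config V n) ℝ := siteOp x (sZ n)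

theorem sPQ (n : ℕ) : sP n * (sP n)ᵀ =
    diagonal fun i : Fin (n + 1) => ((i : ℕ) + 1 : ℝ) * (n - (i : ℕ)) := by
  ext i j
  have hj := j.isLt
  have hi := i.isLt
  rw [Matrix.mul_apply]
  simp only [sP, Matrix.transpose_apply, Matrix.of_apply]
  by_cases hij : i = j
  · subst hij
    rw [Matrix.diagonal_apply_eq]
    by_cases hl : (i : ℕ) < n
    · rw [Finset.sum_eq_single (⟨i + 1, by omega⟩ : Fin (n + 1))]
      · simp only [if_true]
        have : (i : ℕ) ≤ n := hl.le
        have h' : ((i : ℕ) : ℝ) ≤ n := by exact_mod_cast this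
        push_cast
        rw [Real.mul_self_sqrt (mul_nonneg (by positivity) (by linarith))]
        ring
      · intro b _ hb
        rw [if_neg (fun h => hb (Fin.ext h.symm)), zero_mul]
      · simp
    · have hin : (i : ℕ) = n := by omega
      rw [hin, sub_self, mul_zero]
      refine Finset.sum_eq_zero fun b _ => ?_
      have := b.isLt
      rw [if_neg (by omega), zero_mul]
  · rw [Matrix.diagonal_apply_ne _ hij]
    refine Finset.sum_eq_zero fun b _ => ?_
    split_ifs with h1 h2
    · exact absurd (Fin.ext (by omega)) hij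
    all_goals simp

theorem sQP (n : ℕ) : (sP n)ᵀ * sP n =
    diagonal fun i : Fin (n + 1) => ((i : ℕ) : ℝ) * (n + 1 - (i : ℕ)) := by
  ext i j
  have hj := j.isLt
  have hi := i.isLt
  rw [Matrix.mul_apply]
  simp only [sP, Matrix.transpose_apply, Matrix.of_apply]
  by_cases hij : i = j
  · subst hij
    rw [Matrix.diagonal_apply_eq]
    by_cases hl : 0 < (i : ℕ)
    · rw [Finset.sum_eq_single (⟨i - 1, by omega⟩ : Fin (n + 1))]
      · rw [if_pos (by show (i : ℕ) - 1 + 1 = i; omega)]
        have h' : ((i : ℕ) : ℝ) ≤ n := by exact_mod_cast (by omega : (i : ℕ) ≤ n)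
        rw [Real.mul_self_sqrt (mul_nonneg (by positivity) (by linarith))]
      · intro b _ hb
        rw [if_neg (fun h => hb (Fin.ext (by show (b : ℕ) = (i : ℕ) - 1; omega))), zero_mul]
      · simp
    · have hin : (i : ℕ) = 0 := by omega
      rw [hin]
      simp
  · rw [Matrix.diagonal_apply_ne _ hij]
    refine Finset.sum_eq_zero fun b _ => ?_
    split_ifs with h1 h2
    · exact absurd (Fin.ext (by omega)) hij
    all_goals simp

theorem comm_PQ_same (x : V) : P n x * Q n x - Q n x * P n x = (2 : ℝ) • Zop n x := by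
  rw [P, Q, Zop, siteOp_mul, siteOp_mul, ← siteOp_sub, ← siteOp_smul, sPQ, sQP, sZ,
    Matrix.diagonal_sub, ← Matrix.diagonal_smul]
  congr 2
  funext i
  simp [spin]
  ring

theorem sP_mul_sZ (n : ℕ) : sP n * sZ n - sZ n * sP n = -sP n := by
  ext i j
  simp only [sZ, Matrix.sub_apply, Matrix.mul_diagonal, Matrix.diagonal_mul, Matrix.neg_apply]
  simp only [sP, Matrix.of_apply]
  split_ifs with h
  · rw [← h]; push_cast; ring
  · simp

theorem comm_PZ_same (x : V) : P n x * Zop n x - Zop n x * P n x = -P n x := by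
  rw [P, Zop, siteOp_mul, siteOp_mul, ← siteOp_sub, sP_mul_sZ, siteOp_neg]

theorem Q_eq (x : V) : Q n x = (P n x)ᵀ := by rw [P, Q, siteOp_transpose]

theorem Z_transpose (x : V) : (Zop n x)ᵀ = Zop n x := by
  rw [Zop, siteOp_transpose, sZ, Matrix.diagonal_transpose]

theorem comm_QZ_same (x : V) : Zop n x * Q n x - Q n x * Zop n x = -Q n x := by
  have := congrArg Matrix.transpose (comm_PZ_same (n := n) x)
  simpa [Matrix.transpose_mul, Z_transpose, Q_eq] using this

/-- The commutator. -/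
def comm {ι : Type} [Fintype ι] (A B : Matrix ι ι ℝ) : Matrix ι ι ℝ := A * B - B * A

section commLemmas

variable {ι : Type} [Fintype ι] {κ : Type}

theorem comm_sum_right (s : Finset κ) (A : Matrix ι ι ℝ) (B : κ → Matrix ι ι ℝ) :
    comm A (∑ k ∈ s, B k) = ∑ k ∈ s, comm A (B k) := by
  simp [comm, Matrix.mul_sum, Matrix.sum_mul, Finset.sum_sub_distrib]

theorem comm_sum_left (s : Finset κ) (A : κ → Matrix ι ι ℝ) (B : Matrix ι ι ℝ) :
    comm (∑ k ∈ s, A k) B = ∑ k ∈ s, comm (A k) B := by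
  simp [comm, Matrix.mul_sum, Matrix.sum_mul, Finset.sum_sub_distrib]

theorem comm_add_right (A B C : Matrix ι ι ℝ) : comm A (B + C) = comm A B + comm A C := by
  simp [comm, Matrix.mul_add, Matrix.add_mul]; abel

theorem comm_add_left (A B C : Matrix ι ι ℝ) : comm (A + B) C = comm A C + comm B C := by
  simp [comm, Matrix.mul_add, Matrix.add_mul]; abel

theorem comm_sub_right (A B C : Matrix ι ι ℝ) : comm A (B - C) = comm A B - comm A C := by
  simp [comm, Matrix.mul_sub, Matrix.sub_mul]; abel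

theorem comm_sub_left (A B C : Matrix ι ι ℝ) : comm (A - B) C = comm A C - comm B C := by
  simp [comm, Matrix.mul_sub, Matrix.sub_mul]; abel

theorem comm_smul_right (c : ℝ) (A B : Matrix ι ι ℝ) : comm A (c • B) = c • comm A B := by
  simp [comm, smul_sub]

theorem comm_smul_left (c : ℝ) (A B : Matrix ι ι ℝ) : comm (c • A) B = c • comm A B := by
  simp [comm, smul_sub]

theorem comm_mul_left (A B C : Matrix ι ι ℝ) : comm (A * B) C = A * comm B C + comm A C * B := by
  simp [comm, Matrix.mul_sub, Matrix.sub_mul, Matrix.mul_assoc]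

theorem comm_mul_right (A B C : Matrix ι ι ℝ) : comm A (B * C) = comm A B * C + B * comm A C := by
  simp [comm, Matrix.mul_sub, Matrix.sub_mul, Matrix.mul_assoc]

theorem comm_neg_left (A B : Matrix ι ι ℝ) : comm (-A) B = -comm A B := by
  simp [comm]; abel

theorem comm_swap (A B : Matrix ι ι ℝ) : comm A B = -comm B A := by simp [comm]

end commLemmas

theorem comm_PQ (x y : V) : comm (P n x) (Q n y) = if x = y then (2 : ℝ) • Zop n x else 0 := by
  split_ifs with h
  · subst h; exact comm_PQ_same x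
  · rw [comm, P, Q, siteOp_comm h, sub_self]

theorem comm_PZ (x y : V) : comm (P n x) (Zop n y) = if x = y then -P n x else 0 := by
  split_ifs with h
  · subst h; exact comm_PZ_same x
  · rw [comm, P, Zop, siteOp_comm h, sub_self]

theorem comm_ZQ (x y : V) : comm (Zop n x) (Q n y) = if x = y then -Q n x else 0 := by
  split_ifs with h
  · subst h; exact comm_QZ_same x
  · rw [comm, Q, Zop, siteOp_comm h, sub_self]

theorem comm_QQ (x y : V) : comm (Q n x) (Q n y) = 0 := by
  by_cases h : x = y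
  · subst h; simp [comm]
  · rw [comm, Q, Q, siteOp_comm h, sub_self]

/-- The bond operator `S_x · S_y`. -/
def bond (n : ℕ) (x y : V) : Matrix (Config V n) (Config V n) ℝ :=
  (1 / 2 : ℝ) • (P n x * Q n y + Q n x * P n y) + Zop n x * Zop n y

/-- Total third spin component. -/
def magReal (n : ℕ) : Matrix (Config V n) (Config V n) ℝ := ∑ x : V, Zop n x

/-- The Hamiltonian `-(1/2) Σ w(x,y) S_x·S_y - h Σ S³_x`. -/
def hamReal (n : ℕ) (w : V → V → ℝ) (h : ℝ) : Matrix (Config V n) (Config V n) ℝ :=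
  -((1 / 2 : ℝ) • ∑ x : V, ∑ y : V, w x y • bond n x y) - h • magReal n

/-- Admissible weights. -/
structure Weight (w : V → V → ℝ) : Prop where
  symm : ∀ x y, w x y = w y x
  self : ∀ x, w x x = 0
  nonneg : ∀ x y, 0 ≤ w x y

theorem bond_transpose {x y : V} (hxy : x ≠ y) : (bond n x y)ᵀ = bond n x y := by
  have h1 : (P n x * Q n y)ᵀ = Q n x * P n y := by
    rw [Matrix.transpose_mul, Q_eq, Q_eq, Matrix.transpose_transpose, ← Q_eq]
    exact siteOp_comm hxy.symm _ _
  have h2 : (Q n x * P n y)ᵀ = P n x * Q n y := by rw [← h1, Matrix.transpose_transpose]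
  have h3 : (Zop n x * Zop n y)ᵀ = Zop n x * Zop n y := by
    rw [Matrix.transpose_mul, Z_transpose, Z_transpose]
    exact siteOp_comm hxy.symm _ _
  rw [bond, Matrix.transpose_add, Matrix.transpose_smul, Matrix.transpose_add, h1, h2, h3,
    add_comm (Q n x * P n y)]

theorem hamReal_symm {w : V → V → ℝ} (hw : Weight w) (h : ℝ) : (hamReal n w h).IsSymm := by
  rw [Matrix.IsSymm, hamReal, Matrix.transpose_sub, Matrix.transpose_neg, Matrix.transpose_smul,
    Matrix.transpose_smul, magReal]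
  simp only [Matrix.transpose_sum, Matrix.transpose_smul, Z_transpose]
  congr 3
  refine Finset.sum_congr rfl fun x _ => Finset.sum_congr rfl fun y _ => ?_
  by_cases hxy : x = y
  · subst hxy; simp [hw.self]
  · rw [bond_transpose hxy]

/-- `Z_x Q_y - Q_x Z_y`. -/
def curJ (n : ℕ) (x y : V) : Matrix (Config V n) (Config V n) ℝ :=
  Zop n x * Q n y - Q n x * Zop n y

theorem comm_bond_Q {x y : V} (hxy : x ≠ y) (z : V) :
    comm (bond n x y) (Q n z) =
      (if x = z then curJ n x y else 0) - (if y = z then curJ n x y else 0) := by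
  rw [bond, comm_add_left, comm_smul_left, comm_add_left, comm_mul_left, comm_mul_left,
    comm_mul_left, comm_PQ, comm_PQ, comm_ZQ, comm_ZQ, comm_QQ, comm_QQ]
  have c1 : Q n x * Zop n y = Zop n y * Q n x := siteOp_comm hxy _ _
  by_cases h1 : x = z
  · subst h1
    simp [hxy.symm, curJ]
    abel
  · by_cases h2 : y = z
    · subst h2
      simp [h1, curJ]
      abel
    · simp [h1, h2]

/-- `T = Σ f(x) S⁺_x`. -/
def wave (n : ℕ) (f : V → ℝ) : Matrix (Config V n) (Config V n) ℝ := ∑ x, f x • P n x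

theorem wave_transpose (f : V → ℝ) : (wave n f)ᵀ = ∑ x, f x • Q n x := by
  simp [wave, Matrix.transpose_sum, Q_eq]

theorem comm_ham_wave {w : V → V → ℝ} (hw : Weight w) (h : ℝ) (f : V → ℝ) :
    comm (hamReal n w h) (wave n f)ᵀ =
      -((1 / 2 : ℝ) • ∑ x, ∑ y, (w x y * (f x - f y)) • curJ n x y) + h • (wave n f)ᵀ := by
  rw [wave_transpose, hamReal, comm_sub_left, comm_neg_left, comm_smul_left, comm_smul_left]
  have e1 : comm (magReal n) (∑ x, f x • Q n x) = -∑ x, f x • Q n x := by
    rw [magReal, comm_sum_left, ← Finset.sum_neg_distrib]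
    refine Finset.sum_congr rfl fun x _ => ?_
    rw [comm_sum_right, Finset.sum_eq_single x]
    · rw [comm_smul_right, comm_ZQ, if_pos rfl, smul_neg]
    · intro b _ hb
      rw [comm_smul_right, comm_ZQ, if_neg hb.symm, smul_zero]
    · simp
  rw [e1, smul_neg, sub_neg_eq_add]
  congr 3
  rw [comm_sum_left]
  refine Finset.sum_congr rfl fun x _ => ?_
  rw [comm_sum_left]
  refine Finset.sum_congr rfl fun y _ => ?_
  by_cases hxy : x = y
  · subst hxy; simp [hw.self, comm]
  rw [comm_smul_left, comm_sum_right]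
  simp_rw [comm_smul_right, comm_bond_Q hxy, smul_sub, smul_ite, smul_zero]
  rw [Finset.sum_sub_distrib, Finset.sum_ite_eq, Finset.sum_ite_eq]
  simp only [Finset.mem_univ, if_true]
  rw [← sub_smul, smul_smul]

theorem comm_wave_curJ {x y : V} (hxy : x ≠ y) (f : V → ℝ) :
    comm (wave n f) (curJ n x y) =
      f x • (-(P n x * Q n y) - (2 : ℝ) • (Zop n x * Zop n y))
        + f y • ((2 : ℝ) • (Zop n x * Zop n y) + Q n x * P n y) := by
  rw [wave, comm_sum_left]
  simp_rw [comm_smul_left, curJ, comm_sub_right, comm_mul_right, comm_PQ, comm_PZ]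
  rw [← Finset.sum_subset (Finset.subset_univ ({x, y} : Finset V))]
  · rw [Finset.sum_pair hxy]
    simp [hxy, hxy.symm, smul_sub, smul_add]
  · intro z _ hz
    simp at hz
    simp [hz.1, hz.2]

/-- `avg (S⁺_x S⁻_y) + 2 avg (S³_x S³_y)`. -/
def pairAvg (A : Matrix (Config V n) (Config V n) ℝ) (x y : V) : ℝ :=
  avg A (P n x * Q n y) + 2 * avg A (Zop n x * Zop n y)

theorem avg_doubleComm {A : Matrix (Config V n) (Config V n) ℝ} (hA : A.IsSymm) {w : V → V → ℝ}
    (hw : Weight w) (h : ℝ) (f : V → ℝ) :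
    avg A (comm (wave n f) (comm (hamReal n w h) (wave n f)ᵀ)) =
      (1 / 2) * ∑ x, ∑ y, w x y * (f x - f y) ^ 2 * pairAvg A x y
        + 2 * h * ∑ x, f x ^ 2 * avg A (Zop n x) := by
  rw [comm_ham_wave hw, comm_add_right, avg_add]
  congr 1
  · rw [← neg_smul, comm_smul_right, avg_smul, comm_sum_right, avg_sum, neg_mul, ← mul_neg,
      ← Finset.sum_neg_distrib]
    congr 1
    refine Finset.sum_congr rfl fun x _ => ?_
    rw [comm_sum_right, avg_sum, ← Finset.sum_neg_distrib]
    refine Finset.sum_congr rfl fun y _ => ?_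
    by_cases hxy : x = y
    · subst hxy; simp [hw.self, comm, avg_zero]
    have ht : avg A (Q n x * P n y) = avg A (P n x * Q n y) := by
      rw [← avg_transpose hA (P n x * Q n y)]
      congr 1
      rw [Matrix.transpose_mul, Q_eq, Q_eq, Matrix.transpose_transpose, ← Q_eq]
      exact (siteOp_comm hxy _ _)
    rw [comm_smul_right, avg_smul, comm_wave_curJ hxy, avg_add, avg_smul, avg_smul, avg_sub,
      avg_neg, avg_add, avg_smul, ht, pairAvg]
    ring
  · rw [comm_smul_right, avg_smul, wave_transpose, wave, comm_sum_left, avg_sum]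
    have : ∀ x, avg A (comm (f x • P n x) (∑ y, f y • Q n y)) = 2 * (f x ^ 2 * avg A (Zop n x)) := by
      intro x
      rw [comm_sum_right, Finset.sum_eq_single x]
      · rw [comm_smul_left, comm_smul_right, comm_PQ, if_pos rfl, avg_smul, avg_smul, avg_smul]
        ring
      · intro b _ hb
        rw [comm_smul_left, comm_smul_right, comm_PQ, if_neg hb.symm, smul_zero, smul_zero]
      · simp
    simp_rw [this]
    rw [← Finset.mul_sum]
    ring

theorem avg_comm_wave (A : Matrix (Config V n) (Config V n) ℝ) (f : V → ℝ) :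
    avg A (wave n f * (wave n f)ᵀ) - avg A ((wave n f)ᵀ * wave n f) =
      2 * ∑ x, f x ^ 2 * avg A (Zop n x) := by
  rw [← avg_sub]
  change avg A (comm (wave n f) (wave n f)ᵀ) = _
  rw [wave_transpose, wave, comm_sum_left, avg_sum, Finset.mul_sum]
  refine Finset.sum_congr rfl fun x _ => ?_
  rw [comm_sum_right, Finset.sum_eq_single x]
  · rw [comm_smul_left, comm_smul_right, comm_PQ, if_pos rfl, avg_smul, avg_smul, avg_smul]
    ring
  · intro b _ hb
    rw [comm_smul_left, comm_smul_right, comm_PQ, if_neg hb.symm, smul_zero, smul_zero]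
  · simp

/-- Diagonal density. -/
def dens {ι : Type} [Fintype ι] [DecidableEq ι] (A : Matrix ι ι ℝ) (a : ι) : ℝ :=
  NormedSpace.exp A a a / ztr A

theorem dens_nonneg {A : Matrix (Config V n) (Config V n) ℝ} (hA : A.IsSymm) (σ : Config V n) :
    0 ≤ dens A σ := diag_density_nonneg hA σ

theorem dens_sum {A : Matrix (Config V n) (Config V n) ℝ} (hA : A.IsSymm) :
    ∑ σ, dens A σ = 1 := sum_diag_density hA

theorem avg_Zop (A : Matrix (Config V n) (Config V n) ℝ) (x : V) :
    avg A (Zop n x) = ∑ σ : Config V n, dens A σ * (spin n - ((σ x : ℕ) : ℝ)) := by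
  rw [Zop, sZ, siteOp_diagonal, avg_diagonal]; rfl

theorem avg_ZZ (A : Matrix (Config V n) (Config V n) ℝ) (x y : V) :
    avg A (Zop n x * Zop n y) =
      ∑ σ : Config V n, dens A σ * ((spin n - (σ x : ℕ)) * (spin n - (σ y : ℕ))) := by
  rw [Zop, Zop, sZ, siteOp_diagonal, siteOp_diagonal, Matrix.diagonal_mul_diagonal, avg_diagonal]
  rfl

theorem fin_cast_le (i : Fin (n + 1)) : ((i : ℕ) : ℝ) ≤ n := by
  exact_mod_cast Nat.lt_succ_iff.1 i.isLt

theorem avg_QP_le {A : Matrix (Config V n) (Config V n) ℝ} (hA : A.IsSymm) (x : V) :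
    avg A (Q n x * P n x) ≤ (n : ℝ) * (spin n - avg A (Zop n x)) := by
  rw [Q, P, siteOp_mul, sQP, siteOp_diagonal, avg_diagonal, avg_Zop]
  have : (n : ℝ) * (spin n - ∑ σ : Config V n, dens A σ * (spin n - ((σ x : ℕ) : ℝ))) =
      ∑ σ : Config V n, dens A σ * ((n : ℝ) * ((σ x : ℕ) : ℝ)) := by
    have h1 : spin n = ∑ σ : Config V n, dens A σ * spin n := by
      rw [← Finset.sum_mul, dens_sum hA, one_mul]
    conv_lhs => arg 2; arg 1; rw [h1]
    rw [← Finset.sum_sub_distrib, Finset.mul_sum]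
    exact Finset.sum_congr rfl fun σ _ => by ring
  rw [this]
  refine Finset.sum_le_sum fun σ _ => mul_le_mul_of_nonneg_left ?_ (dens_nonneg hA σ)
  have := fin_cast_le (σ x)
  rcases Nat.eq_zero_or_pos (σ x : ℕ) with h | h
  · rw [h]; simp
  · have h1 : (1 : ℝ) ≤ ((σ x : ℕ) : ℝ) := by exact_mod_cast h
    nlinarith

/-- Sum with at most one nonzero term. -/
theorem sum_if_le {α : Type} [Fintype α] {p : α → Prop} [DecidablePred p] {c : ℝ} (hc : 0 ≤ c)
    (hp : ∀ a b, p a → p b → a = b) : ∑ a, (if p a then c else 0) ≤ c := by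
  by_cases h : ∃ a, p a
  · obtain ⟨a, ha⟩ := h
    rw [Finset.sum_eq_single a (fun b _ hb => if_neg fun h' => hb (hp b a h' ha)) (by simp),
      if_pos ha]
  · rw [Finset.sum_eq_zero fun a _ => if_neg fun h' => h ⟨a, h'⟩]
    exact hc

theorem avg_PQ_abs_le {A : Matrix (Config V n) (Config V n) ℝ} (hA : A.IsSymm) {x y : V}
    (hxy : x ≠ y) :
    |avg A (P n x * Q n y)| ≤ ∑ σ : Config V n, dens A σ *
      ((((n : ℝ) - (σ x : ℕ)) * (σ y : ℕ) + (σ x : ℕ) * ((n : ℝ) - (σ y : ℕ))) / 2) := by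
  set O := P n x * Q n y with hO
  set c : Config V n → ℝ := fun σ => ((n : ℝ) - (σ x : ℕ)) * (σ y : ℕ) with hc
  set d : Config V n → ℝ := fun σ => (σ x : ℕ) * ((n : ℝ) - (σ y : ℕ)) with hd
  set E : Config V n → Config V n → Prop := fun σ τ =>
    (∀ z, z ≠ x → z ≠ y → σ z = τ z) ∧ (σ x : ℕ) + 1 = (τ x : ℕ) ∧ (τ y : ℕ) + 1 = (σ y : ℕ)
    with hE
  have hOe : ∀ σ τ, O σ τ = if E σ τ then
      Real.sqrt ((τ x : ℕ) * ((n : ℝ) + 1 - (τ x : ℕ))) *
        Real.sqrt ((σ y : ℕ) * ((n : ℝ) + 1 - (σ y : ℕ))) else 0 := by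
    intro σ τ
    rw [hO, P, Q, siteOp_mul_ne hxy]
    simp only [sP, Matrix.transpose_apply, Matrix.of_apply, hE]
    split_ifs <;> simp_all
  set r : Matrix (Config V n) (Config V n) ℝ := Matrix.of fun σ τ => |O σ τ| / d τ with hr
  have hfacts : ∀ σ τ, E σ τ → (0 < d τ ∧ O σ τ ≠ 0 ∧ |O σ τ| ^ 2 = c σ * d τ) := by
    intro σ τ hE'
    obtain ⟨e0, e1, e2⟩ := hE'
    have h1 := (τ x).isLt
    have h2 := (σ y).isLt
    have e1' : ((τ x : ℕ) : ℝ) = (σ x : ℕ) + 1 := by exact_mod_cast e1.symm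
    have e2' : ((σ y : ℕ) : ℝ) = (τ y : ℕ) + 1 := by exact_mod_cast e2.symm
    have p1 : (0 : ℝ) < (τ x : ℕ) := by exact_mod_cast (by omega : 0 < (τ x : ℕ))
    have p2 : (0 : ℝ) < (σ y : ℕ) := by exact_mod_cast (by omega : 0 < (σ y : ℕ))
    have p3 := fin_cast_le (τ x)
    have p4 := fin_cast_le (σ y)
    have q1 : (0 : ℝ) < (τ x : ℕ) * ((n : ℝ) + 1 - (τ x : ℕ)) := mul_pos p1 (by linarith)
    have q2 : (0 : ℝ) < (σ y : ℕ) * ((n : ℝ) + 1 - (σ y : ℕ)) := mul_pos p2 (by linarith)
    refine ⟨mul_pos p1 (by linarith), ?_, ?_⟩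
    · rw [hOe, if_pos ⟨e0, e1, e2⟩]
      positivity
    · rw [sq_abs, hOe, if_pos ⟨e0, e1, e2⟩, mul_pow, Real.sq_sqrt q1.le,
        Real.sq_sqrt q2.le, hc, hd]
      simp only
      rw [show ((σ x : ℕ) : ℝ) = (τ x : ℕ) - 1 by linarith,
        show ((τ y : ℕ) : ℝ) = (σ y : ℕ) - 1 by linarith]
      ring
  have hnE : ∀ σ τ, ¬E σ τ → O σ τ = 0 := fun σ τ h => by rw [hOe, if_neg h]
  have hrpos : ∀ σ τ, O σ τ ≠ 0 → 0 < r σ τ := by
    intro σ τ h
    have := hfacts σ τ (by by_contra h'; exact h (hnE σ τ h'))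
    exact div_pos (abs_pos.2 h) this.1
  have hpoint : ∀ σ τ, |O σ τ| * (r σ τ * dens A σ + dens A τ / r σ τ) / 2 ≤
      (if E σ τ then c σ * dens A σ / 2 else 0) + (if E σ τ then d τ * dens A τ / 2 else 0) := by
    intro σ τ
    by_cases h : E σ τ
    · obtain ⟨hd0, hO0, hsq⟩ := hfacts σ τ h
      rw [if_pos h, if_pos h]
      have habs : 0 < |O σ τ| := abs_pos.2 hO0
      have hr1 : |O σ τ| * r σ τ = c σ := by
        rw [hr, Matrix.of_apply, ← mul_div_assoc, ← sq, hsq, mul_div_assoc, div_self hd0.ne',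
          mul_one]
      have hr2 : |O σ τ| / r σ τ = d τ := by
        rw [hr, Matrix.of_apply]; field_simp
      rw [← hr1, ← hr2]
      exact le_of_eq (by ring)
    · rw [if_neg h, if_neg h, hnE σ τ h]; simp
  have hsum : ∑ σ, ∑ τ, |O σ τ| * (r σ τ * dens A σ + dens A τ / r σ τ) / 2 ≤
      ∑ σ : Config V n, dens A σ * ((c σ + d σ) / 2) := by
    refine (Finset.sum_le_sum fun σ _ => Finset.sum_le_sum fun τ _ => hpoint σ τ).trans ?_
    rw [show (∑ σ : Config V n, dens A σ * ((c σ + d σ) / 2))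
      = (∑ σ : Config V n, c σ * dens A σ / 2) + ∑ σ : Config V n, d σ * dens A σ / 2 by
        rw [← Finset.sum_add_distrib]; exact Finset.sum_congr rfl fun σ _ => by ring]
    simp_rw [Finset.sum_add_distrib]
    have hnn : ∀ σ : Config V n, 0 ≤ c σ ∧ 0 ≤ d σ := fun σ =>
      ⟨mul_nonneg (sub_nonneg.2 (fin_cast_le _)) (by positivity),
        mul_nonneg (by positivity) (sub_nonneg.2 (fin_cast_le _))⟩
    refine add_le_add (Finset.sum_le_sum fun σ _ => ?_) ?_
    · refine sum_if_le (by have := (hnn σ).1; have := dens_nonneg hA σ; positivity) ?_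
      intro a b ⟨ha0, ha1, ha2⟩ ⟨hb0, hb1, hb2⟩
      funext z
      by_cases hzx : z = x
      · subst hzx; exact Fin.ext (by omega)
      by_cases hzy : z = y
      · subst hzy; exact Fin.ext (by omega)
      exact (ha0 z hzx hzy).symm.trans (hb0 z hzx hzy)
    · rw [Finset.sum_comm]
      refine Finset.sum_le_sum fun τ _ => ?_
      refine sum_if_le (by have := (hnn τ).2; have := dens_nonneg hA τ; positivity) ?_
      intro a b ⟨ha0, ha1, ha2⟩ ⟨hb0, hb1, hb2⟩
      funext z
      by_cases hzx : z = x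
      · subst hzx; exact Fin.ext (by omega)
      by_cases hzy : z = y
      · subst hzy; exact Fin.ext (by omega)
      exact (ha0 z hzx hzy).trans (hb0 z hzx hzy).symm
  rw [abs_le]
  constructor
  · rw [neg_le, ← avg_neg]
    refine le_trans ((avg_le_of_hop hA (r := r) fun a b h => hrpos a b (by simpa using h)).trans
      (le_of_eq ?_)) hsum
    exact Finset.sum_congr rfl fun a _ => Finset.sum_congr rfl fun b _ => by
      rw [Matrix.neg_apply, abs_neg]; rfl
  · exact le_trans (avg_le_of_hop hA hrpos) hsum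

theorem pairAvg_le {A : Matrix (Config V n) (Config V n) ℝ} (hA : A.IsSymm) {x y : V}
    (hxy : x ≠ y) : pairAvg A x y ≤ 2 * spin n ^ 2 := by
  have h1 := (le_abs_self _).trans (avg_PQ_abs_le hA hxy)
  rw [pairAvg, avg_ZZ]
  have h2 : ∀ σ : Config V n, dens A σ *
        ((((n : ℝ) - (σ x : ℕ)) * (σ y : ℕ) + (σ x : ℕ) * ((n : ℝ) - (σ y : ℕ))) / 2)
      + 2 * (dens A σ * ((spin n - (σ x : ℕ)) * (spin n - (σ y : ℕ))))
      ≤ dens A σ * (2 * spin n ^ 2) := by
    intro σ
    have hd := dens_nonneg hA σ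
    have a := fin_cast_le (σ x)
    have b := fin_cast_le (σ y)
    have a0 : (0 : ℝ) ≤ (σ x : ℕ) := by positivity
    have b0 : (0 : ℝ) ≤ (σ y : ℕ) := by positivity
    have : ((((n : ℝ) - (σ x : ℕ)) * (σ y : ℕ) + (σ x : ℕ) * ((n : ℝ) - (σ y : ℕ))) / 2)
        + 2 * ((spin n - (σ x : ℕ)) * (spin n - (σ y : ℕ))) ≤ 2 * spin n ^ 2 := by
      simp only [spin]
      nlinarith [mul_le_mul_of_nonneg_left b a0, mul_le_mul_of_nonneg_left a b0]
    nlinarith [mul_le_mul_of_nonneg_left this hd]
  have h3 := Finset.sum_le_sum (s := Finset.univ) fun σ _ => h2 σ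
  rw [Finset.sum_add_distrib, ← Finset.mul_sum, ← Finset.sum_mul, dens_sum hA, one_mul] at h3
  linarith

theorem avg_bond_abs_le {A : Matrix (Config V n) (Config V n) ℝ} (hA : A.IsSymm) {x y : V}
    (hxy : x ≠ y) : |avg A (bond n x y)| ≤ 2 * (n : ℝ) ^ 2 := by
  have ht : avg A (Q n x * P n y) = avg A (P n x * Q n y) := by
    rw [← avg_transpose hA (P n x * Q n y)]
    congr 1
    rw [Matrix.transpose_mul, Q_eq, Q_eq, Matrix.transpose_transpose, ← Q_eq]
    exact (siteOp_comm hxy _ _)
  rw [bond, avg_add, avg_smul, avg_add, ht]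
  have h1 : |avg A (P n x * Q n y)| ≤ (n : ℝ) ^ 2 := by
    refine (avg_PQ_abs_le hA hxy).trans ?_
    calc _ ≤ ∑ σ : Config V n, dens A σ * (n : ℝ) ^ 2 := by
          refine Finset.sum_le_sum fun σ _ => mul_le_mul_of_nonneg_left ?_ (dens_nonneg hA σ)
          have a := fin_cast_le (σ x)
          have b := fin_cast_le (σ y)
          have a0 : (0 : ℝ) ≤ (σ x : ℕ) := by positivity
          have b0 : (0 : ℝ) ≤ (σ y : ℕ) := by positivity
          nlinarith
      _ = _ := by rw [← Finset.sum_mul, dens_sum hA, one_mul]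
  have h2 : |avg A (Zop n x * Zop n y)| ≤ (n : ℝ) ^ 2 := by
    rw [avg_ZZ]
    refine (Finset.abs_sum_le_sum_abs _ _).trans ?_
    calc _ ≤ ∑ σ : Config V n, dens A σ * (n : ℝ) ^ 2 := by
          refine Finset.sum_le_sum fun σ _ => ?_
          rw [abs_mul, abs_of_nonneg (dens_nonneg hA σ)]
          refine mul_le_mul_of_nonneg_left ?_ (dens_nonneg hA σ)
          have a := fin_cast_le (σ x)
          have b := fin_cast_le (σ y)
          have a0 : (0 : ℝ) ≤ (σ x : ℕ) := by positivity
          have b0 : (0 : ℝ) ≤ (σ y : ℕ) := by positivity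
          rw [abs_mul, sq]
          exact mul_le_mul (abs_le.2 ⟨by simp only [spin]; linarith, by simp only [spin]; linarith⟩)
            (abs_le.2 ⟨by simp only [spin]; linarith, by simp only [spin]; linarith⟩) (abs_nonneg _)
            (by positivity)
      _ = _ := by rw [← Finset.sum_mul, dens_sum hA, one_mul]
  rw [abs_le] at h1 h2 ⊢
  constructor <;> linarith

theorem avg_Zop_abs_le {A : Matrix (Config V n) (Config V n) ℝ} (hA : A.IsSymm) (x : V) :
    |avg A (Zop n x)| ≤ spin n := by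
  rw [avg_Zop]
  refine (Finset.abs_sum_le_sum_abs _ _).trans ?_
  calc _ ≤ ∑ σ : Config V n, dens A σ * spin n := by
        refine Finset.sum_le_sum fun σ _ => ?_
        rw [abs_mul, abs_of_nonneg (dens_nonneg hA σ)]
        refine mul_le_mul_of_nonneg_left ?_ (dens_nonneg hA σ)
        have a := fin_cast_le (σ x)
        have a0 : (0 : ℝ) ≤ (σ x : ℕ) := by positivity
        exact abs_le.2 ⟨by simp only [spin]; linarith, by simp only [spin]; linarith⟩
    _ = _ := by rw [← Finset.sum_mul, dens_sum hA, one_mul]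

end

end Vale.Agent.P361
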