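import Mathlib
import Vale.Agent.P361.Ops

/-! The finite-volume spin-wave inequality on a cube. -/

namespace Vale.Agent.P361

noncomputable section

open Matrix
open scoped BigOperators

variable {V : Type} [Fintype V] [DecidableEq V] {n : ℕ}

/-- Gibbs exponent `-β H`. -/
def gibbsExp (n : ℕ) (w : V → V → ℝ) (β h : ℝ) : Matrix (Config V n) (Config V n) ℝ :=
  (-β) • hamReal n w h

theorem gibbsExp_symm {w : V → V → ℝ} (hw : Weight w) (β h : ℝ) : (gibbsExp n w β h).IsSymm :=
  (hamReal_symm hw h).smul _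

theorem spinwave_finite {K : Type} [Fintype K] [DecidableEq K] {w : V → V → ℝ} (hw : Weight w)
    {β h : ℝ} (hβ : 0 < β) (f : K → Fin 2 → V → ℝ) (c : K → ℝ)
    (hnorm : ∀ k x, ∑ r, f k r x ^ 2 = 1)
    (horth : ∀ x y, ∑ k, ∑ r, f k r x * f k r y = if x = y then (Fintype.card K : ℝ) else 0)
    (hc : ∀ k, (1 / 2) * ∑ x, ∑ y, w x y * ∑ r, (f k r x - f k r y) ^ 2 ≤ c k)
    (M : ℝ) (hM : M = ∑ x, avg (gibbsExp n w β h) (Zop n x)) (hMpos : 0 < M) :
    ∑ k, 2 * M / (Real.exp (β * (2 * spin n ^ 2 * c k + 2 * h * M) / (2 * M)) - 1) ≤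
      (Fintype.card K : ℝ) * (n : ℝ) * ((Fintype.card V : ℝ) * spin n - M) := by
  set A := gibbsExp n w β h with hAd
  have hA : A.IsSymm := gibbsExp_symm hw β h
  have step : ∀ k, 2 * M / (Real.exp (β * (2 * spin n ^ 2 * c k + 2 * h * M) / (2 * M)) - 1)
      ≤ ∑ r, avg A ((wave n (f k r))ᵀ * wave n (f k r)) := by
    intro k
    have hdiff : ∑ r, avg A (wave n (f k r) * (wave n (f k r))ᵀ)
        - ∑ r, avg A ((wave n (f k r))ᵀ * wave n (f k r)) = 2 * M := by
      rw [← Finset.sum_sub_distrib]
      simp_rw [avg_comm_wave]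
      rw [← Finset.mul_sum, Finset.sum_comm, hM]
      congr 1
      exact Finset.sum_congr rfl fun x _ => by rw [← Finset.sum_mul, hnorm, one_mul]
    obtain ⟨X, Y, D, hX, hY, hD, hDpos, hb⟩ :=
      bogoliubov hA (fun r => wave n (f k r)) (by linarith)
    subst hX hY
    rw [hdiff] at hb
    have hdc : D = β * ∑ r, avg A (comm (wave n (f k r))
        (comm (hamReal n w h) (wave n (f k r))ᵀ)) := by
      rw [hD, ← Finset.sum_neg_distrib, Finset.mul_sum]
      refine Finset.sum_congr rfl fun r _ => ?_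
      change -avg A (comm (wave n (f k r)) (comm A (wave n (f k r))ᵀ)) = _
      conv_lhs => arg 1; arg 2; rw [hAd, gibbsExp]
      rw [comm_smul_left, comm_smul_right, avg_smul]
      ring
    have hDle : D ≤ β * (2 * spin n ^ 2 * c k + 2 * h * M) := by
      rw [hdc]
      refine mul_le_mul_of_nonneg_left ?_ hβ.le
      simp_rw [avg_doubleComm hA hw]
      rw [Finset.sum_add_distrib]
      refine add_le_add ?_ (le_of_eq ?_)
      · refine le_trans ?_ (mul_le_mul_of_nonneg_left (hc k) (by positivity : (0:ℝ) ≤ 2 * spin n ^ 2))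
        rw [← Finset.mul_sum, show 2 * spin n ^ 2 * (1 / 2 * ∑ x, ∑ y, w x y *
          ∑ r, (f k r x - f k r y) ^ 2) = 1 / 2 * ∑ x, ∑ y, (2 * spin n ^ 2) *
            (w x y * ∑ r, (f k r x - f k r y) ^ 2) by rw [mul_left_comm]; simp_rw [Finset.mul_sum]]
        refine mul_le_mul_of_nonneg_left ?_ (by norm_num)
        rw [Finset.sum_comm]
        refine Finset.sum_le_sum fun x _ => ?_
        rw [Finset.sum_comm]
        refine Finset.sum_le_sum fun y _ => ?_
        by_cases hxy : x = y
        · subst hxy; simp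
        rw [← Finset.sum_mul, ← Finset.mul_sum, mul_comm (2 * spin n ^ 2)]
        exact mul_le_mul_of_nonneg_left (pairAvg_le hA hxy)
          (mul_nonneg (hw.nonneg x y) (Finset.sum_nonneg fun r _ => sq_nonneg _))
      · rw [← Finset.mul_sum, Finset.sum_comm, hM]
        congr 1
        exact Finset.sum_congr rfl fun x _ => by rw [← Finset.sum_mul, hnorm, one_mul]
    refine le_trans ?_ hb
    have h2M : 0 < 2 * M := by linarith
    refine div_le_div_of_nonneg_left h2M.le (sub_pos.2 (Real.one_lt_exp_iff.2 (div_pos hDpos h2M)))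
      (sub_le_sub_right (Real.exp_le_exp.2 (div_le_div_of_nonneg_right hDle h2M.le)) 1)
  refine (Finset.sum_le_sum fun k _ => step k).trans ?_
  have hexpand : ∀ g : V → ℝ, avg A ((wave n g)ᵀ * wave n g)
      = ∑ x, ∑ y, g x * g y * avg A (Q n x * P n y) := by
    intro g
    rw [wave_transpose, wave, Matrix.sum_mul, avg_sum]
    refine Finset.sum_congr rfl fun x _ => ?_
    rw [Matrix.mul_sum, avg_sum]
    refine Finset.sum_congr rfl fun y _ => ?_
    rw [Matrix.smul_mul, Matrix.mul_smul, avg_smul, avg_smul]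
    ring
  calc ∑ k, ∑ r, avg A ((wave n (f k r))ᵀ * wave n (f k r))
      = ∑ x, ∑ y, (∑ k, ∑ r, f k r x * f k r y) * avg A (Q n x * P n y) := by
        simp_rw [hexpand, Finset.sum_mul]
        rw [Finset.sum_congr rfl fun k _ => Finset.sum_comm (s := Finset.univ) (t := Finset.univ),
          Finset.sum_comm]
        refine Finset.sum_congr rfl fun x _ => ?_
        rw [Finset.sum_congr rfl fun k _ => Finset.sum_comm (s := Finset.univ) (t := Finset.univ),
          Finset.sum_comm]
    _ = ∑ x, (Fintype.card K : ℝ) * avg A (Q n x * P n x) := by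
        refine Finset.sum_congr rfl fun x _ => ?_
        simp_rw [horth]
        simp
    _ ≤ ∑ x, (Fintype.card K : ℝ) * ((n : ℝ) * (spin n - avg A (Zop n x))) :=
        Finset.sum_le_sum fun x _ => mul_le_mul_of_nonneg_left (avg_QP_le hA x) (by positivity)
    _ = _ := by
        rw [hM, ← Finset.mul_sum, ← Finset.mul_sum, Finset.sum_sub_distrib]
        simp [mul_assoc]

/-- Nearest-neighbour weight on the cube. -/
def cubeW (N : ℕ) (x y : Site N) : ℝ := if dist1 x y = 1 then 1 else 0

theorem dist1_comm {N : ℕ} (x y : Site N) : dist1 x y = dist1 y x := by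
  refine Finset.sum_congr rfl fun j _ => ?_
  rw [← Int.natAbs_neg, neg_sub]

theorem cubeW_weight (N : ℕ) : Weight (cubeW N) where
  symm x y := by rw [cubeW, cubeW, dist1_comm]
  self x := by simp [cubeW, dist1]
  nonneg x y := by unfold cubeW; split_ifs <;> norm_num

/-- The wave numbers `2π(k - N)/(2N+1)`. -/
def theta (N : ℕ) (a : Fin (2 * N + 1)) : ℝ :=
  2 * Real.pi * ((a : ℝ) - N) / (2 * (N : ℝ) + 1)

theorem sum_exp_theta (N : ℕ) (a b : Fin (2 * N + 1)) (hab : a ≠ b) :
    ∑ k : Fin (2 * N + 1), Complex.exp ((theta N k * ((a : ℝ) - b) : ℝ) * Complex.I) = 0 := by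
  set L : ℂ := 2 * (N : ℂ) + 1 with hL
  set m : ℤ := (a : ℤ) - (b : ℤ) with hm
  set z : ℂ := Complex.exp (2 * Real.pi * Complex.I * m / L) with hz
  have hL0 : L ≠ 0 := by
    have : ((2 * N + 1 : ℕ) : ℂ) ≠ 0 := Nat.cast_ne_zero.2 (by omega)
    simpa [hL] using this
  have hterm : ∀ k : Fin (2 * N + 1),
      Complex.exp ((theta N k * ((a : ℝ) - b) : ℝ) * Complex.I) =
      Complex.exp (-(2 * Real.pi * Complex.I * m * N / L)) * z ^ (k : ℕ) := by
    intro k
    rw [hz, ← Complex.exp_nat_mul, ← Complex.exp_add]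
    congr 1
    simp only [theta, hm, hL]
    push_cast
    field_simp
    ring
  have hz1 : z ^ (2 * N + 1) = 1 := by
    rw [hz, ← Complex.exp_nat_mul, Complex.exp_eq_one_iff]
    refine ⟨m, ?_⟩
    rw [hL]; push_cast
    rw [hL] at hL0
    field_simp
  have hzne : z ≠ 1 := by
    rw [hz, Ne, Complex.exp_eq_one_iff]
    rintro ⟨q, hq⟩
    have h1 : (m : ℂ) = q * L := by
      have hpi : (2 * Real.pi * Complex.I : ℂ) ≠ 0 := by simp [Real.pi_ne_zero]
      rw [div_eq_iff hL0] at hq
      refine mul_left_cancel₀ hpi ?_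
      rw [hq]; ring
    have h2 : m = q * (2 * (N : ℤ) + 1) := by
      rw [hL] at h1
      exact_mod_cast h1
    have ha := a.isLt
    have hb := b.isLt
    have hm1 : |m| < 2 * (N : ℤ) + 1 := by
      rw [abs_lt]; constructor <;> omega
    have hq0 : q = 0 := by
      by_contra hq'
      have : 1 ≤ |q| := Int.one_le_abs hq'
      rw [h2, abs_mul, abs_of_pos (by positivity : (0:ℤ) < 2 * (N : ℤ) + 1)] at hm1
      nlinarith
    rw [hq0, zero_mul] at h2
    exact hab (Fin.ext (by omega))
  simp_rw [hterm]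
  rw [← Finset.mul_sum, Fin.sum_univ_eq_sum_range (fun k => z ^ k), geom_sum_eq hzne, hz1]
  simp

/-- The phase `θ(k)·x`. -/
def phase (N : ℕ) (k x : Site N) : ℝ := ∑ j, theta N (k j) * (x j : ℝ)

theorem sum_cos_phase (N : ℕ) (x y : Site N) :
    ∑ k : Site N, Real.cos (phase N k x - phase N k y) =
      if x = y then (Fintype.card (Site N) : ℝ) else 0 := by
  split_ifs with h
  · subst h; simp
  · have hc : ∑ k : Site N, Complex.exp ((phase N k x - phase N k y : ℝ) * Complex.I) = 0 := by
      have : ∀ k : Site N, Complex.exp ((phase N k x - phase N k y : ℝ) * Complex.I) =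
          ∏ j, Complex.exp ((theta N (k j) * ((x j : ℝ) - y j) : ℝ) * Complex.I) := by
        intro k
        rw [← Complex.exp_sum, ← Finset.sum_mul, phase, phase, ← Finset.sum_sub_distrib,
          Complex.ofReal_sum]
        simp_rw [← mul_sub]
      simp_rw [this]
      rw [← Fintype.prod_sum (fun j a => Complex.exp ((theta N a * ((x j : ℝ) - y j) : ℝ) * Complex.I))]
      obtain ⟨j, hj⟩ := Function.ne_iff.1 h
      exact Finset.prod_eq_zero (Finset.mem_univ j) (sum_exp_theta N (x j) (y j) hj)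
    have := congrArg Complex.re hc
    rw [Complex.re_sum] at this
    simp_rw [Complex.exp_ofReal_mul_I_re] at this
    exact this

theorem neighbour_le {N : ℕ} (x : Site N) (j : Fin 3) :
    ∑ y : Site N, (if dist1 x y = 1 ∧ x j ≠ y j then (1 : ℝ) else 0) ≤ 2 := by
  rw [← Finset.sum_filter]
  simp only [Finset.sum_const, nsmul_eq_mul, mul_one]
  have hsub : ((Finset.univ.filter fun y : Site N => dist1 x y = 1 ∧ x j ≠ y j).image
      fun y => (y j : ℤ) - (x j : ℤ)) ⊆ ({1, -1} : Finset ℤ) := by
    intro d hd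
    simp only [Finset.mem_image, Finset.mem_filter, Finset.mem_univ, true_and] at hd
    obtain ⟨y, ⟨h1, h2⟩, rfl⟩ := hd
    have hle := Finset.single_le_sum (f := fun i => ((x i : ℤ) - (y i : ℤ)).natAbs)
      (fun i _ => Nat.zero_le _) (Finset.mem_univ j)
    simp only [dist1] at h1
    rw [h1] at hle
    have : (x j : ℕ) ≠ (y j : ℕ) := fun h => h2 (Fin.ext h)
    simp only [Finset.mem_insert, Finset.mem_singleton]
    omega
  have hinj : Set.InjOn (fun y : Site N => (y j : ℤ) - (x j : ℤ))
      (Finset.univ.filter fun y : Site N => dist1 x y = 1 ∧ x j ≠ y j) := by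
    intro a ha b hb hab
    simp only [Finset.coe_filter, Finset.mem_univ, true_and, Set.mem_ofPred_eq] at ha hb
    have hcoord : ∀ y : Site N, dist1 x y = 1 → x j ≠ y j → ∀ i, i ≠ j → y i = x i := by
      intro y h1 h2 i hi
      have h3 : ((x j : ℤ) - (y j : ℤ)).natAbs + ((x i : ℤ) - (y i : ℤ)).natAbs ≤ 1 := by
        refine le_of_le_of_eq ?_ h1
        rw [dist1, ← Finset.sum_pair (f := fun i => ((x i : ℤ) - (y i : ℤ)).natAbs) (Ne.symm hi)]
        exact Finset.sum_le_sum_of_subset (Finset.subset_univ _)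
      have : (x j : ℕ) ≠ (y j : ℕ) := fun h => h2 (Fin.ext h)
      exact Fin.ext (by omega)
    funext i
    by_cases hi : i = j
    · subst hi; exact Fin.ext (by simpa using hab)
    · rw [hcoord a ha.1 ha.2 i hi, hcoord b hb.1 hb.2 i hi]
  have := (Finset.card_image_of_injOn hinj).symm.trans_le (Finset.card_le_card hsub)
  exact_mod_cast this.trans (Finset.card_le_two)

theorem cos_sum_le (N : ℕ) (k : Site N) :
    ∑ x : Site N, ∑ y : Site N, cubeW N x y * (1 - Real.cos (phase N k x - phase N k y)) ≤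
      (Fintype.card (Site N) : ℝ) * ∑ j, theta N (k j) ^ 2 := by
  have hpt : ∀ x y : Site N, cubeW N x y * (1 - Real.cos (phase N k x - phase N k y)) ≤
      ∑ j, (if dist1 x y = 1 ∧ x j ≠ y j then (1 : ℝ) else 0) * (theta N (k j) ^ 2 / 2) := by
    intro x y
    by_cases h : dist1 x y = 1
    · obtain ⟨j, hj⟩ : ∃ j, x j ≠ y j := by
        by_contra hno
        push Not at hno
        rw [funext hno] at h
        simp [dist1] at h
      have hoth : ∀ i, i ≠ j → x i = y i := by
        intro i hi
        have h3 : ((x j : ℤ) - (y j : ℤ)).natAbs + ((x i : ℤ) - (y i : ℤ)).natAbs ≤ 1 := by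
          refine le_of_le_of_eq ?_ h
          rw [dist1, ← Finset.sum_pair (f := fun i => ((x i : ℤ) - (y i : ℤ)).natAbs) (Ne.symm hi)]
          exact Finset.sum_le_sum_of_subset (Finset.subset_univ _)
        have : (x j : ℕ) ≠ (y j : ℕ) := fun h => hj (Fin.ext h)
        exact Fin.ext (by omega)
      have hd : phase N k x - phase N k y = theta N (k j) * ((x j : ℝ) - y j) := by
        rw [phase, phase, ← Finset.sum_sub_distrib, Finset.sum_eq_single j]
        · ring
        · intro i _ hi; rw [hoth i hi]; ring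
        · simp
      have hsq : ((x j : ℝ) - y j) ^ 2 ≤ 1 := by
        have hle := Finset.single_le_sum (f := fun i => ((x i : ℤ) - (y i : ℤ)).natAbs)
          (fun i _ => Nat.zero_le _) (Finset.mem_univ j)
        simp only [dist1] at h
        rw [h] at hle
        have : ((x j : ℤ) - (y j : ℤ)) ^ 2 ≤ 1 := by
          rw [sq_le_one_iff_abs_le_one, Int.abs_eq_natAbs]
          exact_mod_cast hle
        exact_mod_cast this
      rw [cubeW, if_pos h, one_mul, hd]
      refine le_trans ?_ (Finset.single_le_sum (fun i _ => by split_ifs <;> positivity) (Finset.mem_univ j))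
      rw [if_pos ⟨h, hj⟩, one_mul]
      have := Real.one_sub_sq_div_two_le_cos (x := theta N (k j) * ((x j : ℝ) - y j))
      have : (theta N (k j) * ((x j : ℝ) - y j)) ^ 2 ≤ theta N (k j) ^ 2 := by
        rw [mul_pow]; exact mul_le_of_le_one_right (sq_nonneg _) hsq
      linarith
    · rw [cubeW, if_neg h, zero_mul]
      exact Finset.sum_nonneg fun i _ => by split_ifs <;> positivity
  refine (Finset.sum_le_sum fun x _ => Finset.sum_le_sum fun y _ => hpt x y).trans ?_
  refine (Finset.sum_le_sum fun x _ => (?_ : _ ≤ ∑ j, theta N (k j) ^ 2)).trans (le_of_eq ?_)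
  · rw [Finset.sum_comm]
    refine Finset.sum_le_sum fun j _ => ?_
    rw [← Finset.sum_mul]
    calc _ ≤ 2 * (theta N (k j) ^ 2 / 2) :=
          mul_le_mul_of_nonneg_right (neighbour_le x j) (by positivity)
      _ = _ := by ring
  · simp

/-- Finite-volume spin-wave bound with the sharp constant. -/
theorem cube_bound {N : ℕ} {β h : ℝ} (hβ : 0 < β) (μ : ℝ)
    (hμ : μ = (∑ x : Site N, avg (gibbsExp n (cubeW N) β h) (Zop n x)) /
      (Fintype.card (Site N) : ℝ)) (hμpos : 0 < μ) (hn : 1 ≤ n) :
    μ / spin n * ((∑ k : Site N, 1 / (Real.exp (β * (spin n ^ 2 * (∑ j, theta N (k j) ^ 2) / μ + h)) - 1))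
      / (Fintype.card (Site N) : ℝ)) ≤ spin n - μ := by
  set C : ℝ := (Fintype.card (Site N) : ℝ) with hC
  have hCpos : 0 < C := by positivity
  set M := ∑ x : Site N, avg (gibbsExp n (cubeW N) β h) (Zop n x) with hMd
  have hMC : M = μ * C := by rw [hμ]; field_simp
  have hspin : 0 < spin n := by
    have : (1 : ℝ) ≤ n := by exact_mod_cast hn
    rw [spin]; positivity
  have hsc : ∀ k x : Site N, ∀ y : Site N,
      ∑ r : Fin 2, (![Real.cos (phase N k x), Real.sin (phase N k x)] r -
        ![Real.cos (phase N k y), Real.sin (phase N k y)] r) ^ 2 =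
      2 * (1 - Real.cos (phase N k x - phase N k y)) := by
    intro k x y
    rw [Fin.sum_univ_two, Real.cos_sub]
    simp only [Matrix.cons_val_zero, Matrix.cons_val_one, Matrix.cons_val_fin_one]
    linear_combination Real.sin_sq_add_cos_sq (phase N k x) + Real.sin_sq_add_cos_sq (phase N k y)
  have key := spinwave_finite (n := n) (K := Site N) (cubeW_weight N) hβ
    (fun k r x => ![Real.cos (phase N k x), Real.sin (phase N k x)] r)
    (fun k => C * ∑ j, theta N (k j) ^ 2) (h := h)
    (fun k x => by rw [Fin.sum_univ_two]; simp [Real.cos_sq_add_sin_sq])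
    (fun x y => by
      rw [← sum_cos_phase N x y]
      refine Finset.sum_congr rfl fun k _ => ?_
      rw [Fin.sum_univ_two, Real.cos_sub]
      simp)
    (fun k => by
      refine le_trans (le_of_eq ?_) (cos_sum_le N k)
      simp_rw [hsc, Finset.mul_sum]
      exact Finset.sum_congr rfl fun x _ => Finset.sum_congr rfl fun y _ => by ring)
    M hMd (by rw [hMC]; positivity)
  rw [← hC] at key
  have hre : ∀ k : Site N,
      2 * M / (Real.exp (β * (2 * spin n ^ 2 * (C * ∑ j, theta N (k j) ^ 2) + 2 * h * M) / (2 * M)) - 1)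
      = 2 * M * (1 / (Real.exp (β * (spin n ^ 2 * (∑ j, theta N (k j) ^ 2) / μ + h)) - 1)) := by
    intro k
    rw [mul_one_div]
    congr 4
    rw [hMC]
    field_simp
  simp_rw [hre] at key
  rw [← Finset.mul_sum] at key
  set S := ∑ k : Site N, 1 / (Real.exp (β * (spin n ^ 2 * (∑ j, theta N (k j) ^ 2) / μ + h)) - 1)
  rw [hMC] at key
  have hns : (n : ℝ) = 2 * spin n := by rw [spin]; ring
  rw [hns] at key
  rw [div_mul_div_comm, div_le_iff₀ (by positivity)]
  nlinarith [key, hCpos, sq_nonneg C]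

end

end Vale.Agent.P361
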