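import Mathlib
import Vale.Agent.P361.Wave

/-! Existence of the thermodynamic limit of the pressure with free boundary conditions. -/

namespace Vale.Agent.P361

noncomputable section

open Matrix Filter Topology
open scoped BigOperators Kronecker

variable {V W : Type} [Fintype V] [DecidableEq V] [Fintype W] [DecidableEq W] {n : ℕ}

/-- Logarithm of the partition function. -/
def logZ (n : ℕ) (w : V → V → ℝ) (β h : ℝ) : ℝ := Real.log (ztr (gibbsExp n w β h))

theorem logZ_field (w : V → V → ℝ) (hw : Weight w) (β h h' : ℝ) :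
    logZ n w β h + β * (h' - h) * ∑ x, avg (gibbsExp n w β h) (Zop n x) ≤ logZ n w β h' := by
  refine le_trans (le_of_eq ?_) (peierls_bogoliubov (gibbsExp_symm hw β h) (gibbsExp_symm hw β h'))
  rw [logZ]
  congr 1
  have : gibbsExp n w β h' - gibbsExp n w β h = (β * (h' - h)) • magReal n := by
    simp only [gibbsExp, hamReal]
    module
  rw [this, avg_smul, magReal, avg_sum]

theorem logZ_weight_le (w w' : V → V → ℝ) (hw : Weight w) (hw' : Weight w') {β : ℝ} (hβ : 0 ≤ β)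
    (h : ℝ) :
    logZ n w β h - logZ n w' β h ≤ β * (n : ℝ) ^ 2 * ∑ x, ∑ y, |w x y - w' x y| := by
  have hA := gibbsExp_symm (n := n) hw β h
  have hpb := peierls_bogoliubov hA (gibbsExp_symm hw' β h)
  have hd : gibbsExp n w' β h - gibbsExp n w β h =
      (β / 2) • ∑ x, ∑ y, (w' x y - w x y) • bond n x y := by
    simp only [gibbsExp, hamReal, sub_smul, Finset.sum_sub_distrib]
    module
  have habs : |avg (gibbsExp n w β h) (gibbsExp n w' β h - gibbsExp n w β h)| ≤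
      β * (n : ℝ) ^ 2 * ∑ x, ∑ y, |w x y - w' x y| := by
    rw [hd, avg_smul, avg_sum, abs_mul, abs_of_nonneg (by positivity : 0 ≤ β / 2)]
    have : |∑ x, avg (gibbsExp n w β h) (∑ y, (w' x y - w x y) • bond n x y)| ≤
        2 * (n : ℝ) ^ 2 * ∑ x, ∑ y, |w x y - w' x y| := by
      refine (Finset.abs_sum_le_sum_abs _ _).trans ?_
      rw [Finset.mul_sum]
      refine Finset.sum_le_sum fun x _ => ?_
      rw [avg_sum, Finset.mul_sum]
      refine (Finset.abs_sum_le_sum_abs _ _).trans (Finset.sum_le_sum fun y _ => ?_)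
      rw [avg_smul, abs_mul, abs_sub_comm, mul_comm (2 * (n : ℝ) ^ 2)]
      by_cases hxy : x = y
      · subst hxy; simp [hw.self, hw'.self]
      exact mul_le_mul_of_nonneg_left (avg_bond_abs_le hA hxy) (abs_nonneg _)
    calc β / 2 * |∑ x, avg (gibbsExp n w β h) (∑ y, (w' x y - w x y) • bond n x y)|
        ≤ β / 2 * (2 * (n : ℝ) ^ 2 * ∑ x, ∑ y, |w x y - w' x y|) :=
          mul_le_mul_of_nonneg_left this (by positivity)
      _ = _ := by ring
  have := (abs_le.1 habs).1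
  simp only [logZ]
  linarith

theorem logZ_weight_abs (w w' : V → V → ℝ) (hw : Weight w) (hw' : Weight w') {β : ℝ} (hβ : 0 ≤ β)
    (h : ℝ) :
    |logZ n w β h - logZ n w' β h| ≤ β * (n : ℝ) ^ 2 * ∑ x, ∑ y, |w x y - w' x y| := by
  rw [abs_sub_le_iff]
  refine ⟨logZ_weight_le w w' hw hw' hβ h, (logZ_weight_le w' w hw' hw hβ h).trans (le_of_eq ?_)⟩
  simp_rw [abs_sub_comm]

section exp

variable {ι κ : Type} [Fintype ι] [DecidableEq ι] [Fintype κ] [DecidableEq κ]

theorem exp_reindex (e : ι ≃ κ) (A : Matrix ι ι ℝ) :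
    NormedSpace.exp (reindex e e A) = reindex e e (NormedSpace.exp A) := by
  open scoped Norms.Operator in
  exact (NormedSpace.map_exp (Matrix.reindexAlgEquiv ℝ ℝ e)
    (by exact continuous_id.matrix_reindex e e) A).symm

theorem ztr_reindex (e : ι ≃ κ) (A : Matrix ι ι ℝ) : ztr (reindex e e A) = ztr A := by
  rw [ztr, exp_reindex, ztr, Matrix.trace, Matrix.trace]
  exact Equiv.sum_comp e.symm (fun i => (NormedSpace.exp A) i i)

/-- `A ↦ A ⊗ 1`. -/
def kronLeft : Matrix ι ι ℝ →+* Matrix (ι × κ) (ι × κ) ℝ where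
  toFun A := A ⊗ₖ (1 : Matrix κ κ ℝ)
  map_one' := Matrix.one_kronecker_one
  map_mul' A B := by rw [← Matrix.mul_kronecker_mul, Matrix.one_mul]
  map_zero' := Matrix.zero_kronecker _
  map_add' A B := Matrix.add_kronecker _ _ _

/-- `B ↦ 1 ⊗ B`. -/
def kronRight : Matrix κ κ ℝ →+* Matrix (ι × κ) (ι × κ) ℝ where
  toFun B := (1 : Matrix ι ι ℝ) ⊗ₖ B
  map_one' := Matrix.one_kronecker_one
  map_mul' A B := by rw [← Matrix.mul_kronecker_mul, Matrix.one_mul]
  map_zero' := Matrix.kronecker_zero _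
  map_add' A B := Matrix.kronecker_add _ _ _

theorem continuous_kronLeft : Continuous (kronLeft (ι := ι) (κ := κ)) :=
  continuous_matrix fun (i j : ι × κ) => (continuous_id.matrix_elem i.1 j.1).mul continuous_const

theorem continuous_kronRight : Continuous (kronRight (ι := ι) (κ := κ)) :=
  continuous_matrix fun (i j : ι × κ) => continuous_const.mul (continuous_id.matrix_elem i.2 j.2)

theorem ztr_kron (A : Matrix ι ι ℝ) (B : Matrix κ κ ℝ) :
    ztr (A ⊗ₖ (1 : Matrix κ κ ℝ) + (1 : Matrix ι ι ℝ) ⊗ₖ B) = ztr A * ztr B := by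
  have hl : NormedSpace.exp (A ⊗ₖ (1 : Matrix κ κ ℝ)) = NormedSpace.exp A ⊗ₖ (1 : Matrix κ κ ℝ) := by
    open scoped Norms.Operator in
    exact (NormedSpace.map_exp (kronLeft (ι := ι) (κ := κ))
      (by exact continuous_kronLeft) A).symm
  have hr : NormedSpace.exp ((1 : Matrix ι ι ℝ) ⊗ₖ B) = (1 : Matrix ι ι ℝ) ⊗ₖ NormedSpace.exp B := by
    open scoped Norms.Operator in
    exact (NormedSpace.map_exp (kronRight (ι := ι) (κ := κ))
      (by exact continuous_kronRight) B).symm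
  rw [ztr, Matrix.exp_add_of_commute, hl, hr, ← Matrix.mul_kronecker_mul, Matrix.mul_one,
    Matrix.one_mul, Matrix.trace_kronecker, ← ztr, ← ztr]
  show _ * _ = _ * _
  rw [← Matrix.mul_kronecker_mul, ← Matrix.mul_kronecker_mul, Matrix.one_mul, Matrix.mul_one,
    Matrix.one_mul, Matrix.mul_one]

end exp

/-- Transport of configurations. -/
def cfgEquiv (n : ℕ) (e : V ≃ W) : Config V n ≃ Config W n :=
  Equiv.arrowCongr e (Equiv.refl _)

theorem siteOp_reindex (e : V ≃ W) (x : V) (a : Matrix (Fin (n + 1)) (Fin (n + 1)) ℝ) :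
    siteOp (e x) a = reindexAlgEquiv ℝ ℝ (cfgEquiv n e) (siteOp x a) := by
  ext σ τ
  simp only [siteOp, Matrix.of_apply, reindexAlgEquiv_apply, Matrix.reindex_apply,
    Matrix.submatrix_apply, cfgEquiv, Equiv.arrowCongr_symm, Equiv.arrowCongr_apply,
    Equiv.refl_symm, Equiv.coe_refl, Equiv.symm_symm, Function.comp_apply, id_eq]
  refine if_congr ⟨fun h y hy => h (e y) (e.injective.ne hy), fun h y hy => ?_⟩ rfl rfl
  have := h (e.symm y) (fun h' => hy (by rw [← h', Equiv.apply_symm_apply]))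
  simpa using this

theorem logZ_iso (e : V ≃ W) (w : V → V → ℝ) (w' : W → W → ℝ)
    (hh : ∀ x y, w' (e x) (e y) = w x y) (β h : ℝ) : logZ n w' β h = logZ n w β h := by
  have : gibbsExp n w' β h = reindexAlgEquiv ℝ ℝ (cfgEquiv n e) (gibbsExp n w β h) := by
    simp only [gibbsExp, hamReal, magReal, bond, P, Q, Zop, map_smul, map_sub, map_neg, map_sum,
      map_add, map_mul, ← siteOp_reindex]
    rw [← Equiv.sum_comp e, ← Equiv.sum_comp e (fun x => siteOp x (sZ n))]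
    congr 4
    refine Finset.sum_congr rfl fun x _ => ?_
    rw [← Equiv.sum_comp e]
    exact Finset.sum_congr rfl fun y _ => by rw [hh]
  rw [logZ, logZ, this, reindexAlgEquiv_apply, ztr_reindex]

theorem siteOp_inl (x : V) (a : Matrix (Fin (n + 1)) (Fin (n + 1)) ℝ) :
    (siteOp (Sum.inl x : V ⊕ W) a : Matrix (Config (V ⊕ W) n) (Config (V ⊕ W) n) ℝ) =
      reindexAlgEquiv ℝ ℝ (Equiv.sumArrowEquivProdArrow V W (Fin (n + 1))).symm
        (kronLeft (κ := Config W n) (siteOp x a)) := by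
  ext σ τ
  change (if ∀ y, y ≠ (Sum.inl x : V ⊕ W) → σ y = τ y then a (σ (Sum.inl x)) (τ (Sum.inl x)) else 0) =
    (if ∀ y, y ≠ x → σ (Sum.inl y) = τ (Sum.inl y) then a (σ (Sum.inl x)) (τ (Sum.inl x)) else 0) *
      (1 : Matrix (Config W n) (Config W n) ℝ) (σ ∘ Sum.inr) (τ ∘ Sum.inr)
  rw [Matrix.one_apply, mul_ite, mul_one, mul_zero, ← ite_and]
  refine if_congr ⟨fun h => ⟨funext fun r => h (Sum.inr r) (by simp),
    fun y hy => h (Sum.inl y) (by simpa using hy)⟩, ?_⟩ rfl rfl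
  rintro ⟨h1, h2⟩ (y | r) hy
  · exact h2 y (by simpa using hy)
  · exact congrFun h1 r

theorem siteOp_inr (x : W) (a : Matrix (Fin (n + 1)) (Fin (n + 1)) ℝ) :
    (siteOp (Sum.inr x : V ⊕ W) a : Matrix (Config (V ⊕ W) n) (Config (V ⊕ W) n) ℝ) =
      reindexAlgEquiv ℝ ℝ (Equiv.sumArrowEquivProdArrow V W (Fin (n + 1))).symm
        (kronRight (ι := Config V n) (siteOp x a)) := by
  ext σ τ
  change (if ∀ y, y ≠ (Sum.inr x : V ⊕ W) → σ y = τ y then a (σ (Sum.inr x)) (τ (Sum.inr x)) else 0) =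
    (1 : Matrix (Config V n) (Config V n) ℝ) (σ ∘ Sum.inl) (τ ∘ Sum.inl) *
    (if ∀ y, y ≠ x → σ (Sum.inr y) = τ (Sum.inr y) then a (σ (Sum.inr x)) (τ (Sum.inr x)) else 0)
  rw [Matrix.one_apply, ite_mul, one_mul, zero_mul, ← ite_and]
  refine if_congr ⟨fun h => ⟨funext fun r => h (Sum.inl r) (by simp),
    fun y hy => h (Sum.inr y) (by simpa using hy)⟩, ?_⟩ rfl rfl
  rintro ⟨h1, h2⟩ (r | y) hy
  · exact congrFun h1 r
  · exact h2 y (by simpa using hy)

/-- Decoupled weight on a disjoint union. -/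
def sumW (w₁ : V → V → ℝ) (w₂ : W → W → ℝ) : V ⊕ W → V ⊕ W → ℝ
  | Sum.inl x, Sum.inl y => w₁ x y
  | Sum.inr x, Sum.inr y => w₂ x y
  | _, _ => 0

theorem sumW_weight {w₁ : V → V → ℝ} {w₂ : W → W → ℝ} (h1 : Weight w₁) (h2 : Weight w₂) :
    Weight (sumW w₁ w₂) where
  symm := by
    rintro (x | x) (y | y)
    · simp [sumW, h1.symm x y]
    · rfl
    · rfl
    · simp [sumW, h2.symm x y]
  self := by rintro (x | x) <;> simp [sumW, h1.self, h2.self]
  nonneg := by rintro (x | x) (y | y) <;> simp [sumW, h1.nonneg, h2.nonneg]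

theorem logZ_sum {w₁ : V → V → ℝ} {w₂ : W → W → ℝ} (h1 : Weight w₁) (h2 : Weight w₂) (β h : ℝ) :
    logZ n (sumW w₁ w₂) β h = logZ n w₁ β h + logZ n w₂ β h := by
  set Φ := reindexAlgEquiv ℝ ℝ (Equiv.sumArrowEquivProdArrow V W (Fin (n + 1))).symm
  have hl : kronLeft (κ := Config W n) (gibbsExp n w₁ β h) = (-β) •
      (-((1 / 2 : ℝ) • ∑ x : V, ∑ y : V, w₁ x y •
        ((1 / 2 : ℝ) • (kronLeft (siteOp x (sP n)) * kronLeft (siteOp y (sP n)ᵀ)
          + kronLeft (siteOp x (sP n)ᵀ) * kronLeft (siteOp y (sP n)))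
          + kronLeft (siteOp x (sZ n)) * kronLeft (siteOp y (sZ n))))
        - h • ∑ x : V, kronLeft (siteOp x (sZ n))) := by
    have hs : ∀ (c : ℝ) (A : Matrix (Config V n) (Config V n) ℝ),
        kronLeft (κ := Config W n) (c • A) = c • kronLeft A := fun c A => Matrix.smul_kronecker c A _
    simp only [gibbsExp, hamReal, magReal, bond, P, Q, Zop, hs, map_sub, map_neg, map_sum, map_add,
      map_mul]
  have hr : kronRight (ι := Config V n) (gibbsExp n w₂ β h) = (-β) •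
      (-((1 / 2 : ℝ) • ∑ x : W, ∑ y : W, w₂ x y •
        ((1 / 2 : ℝ) • (kronRight (siteOp x (sP n)) * kronRight (siteOp y (sP n)ᵀ)
          + kronRight (siteOp x (sP n)ᵀ) * kronRight (siteOp y (sP n)))
          + kronRight (siteOp x (sZ n)) * kronRight (siteOp y (sZ n))))
        - h • ∑ x : W, kronRight (siteOp x (sZ n))) := by
    have hs : ∀ (c : ℝ) (A : Matrix (Config W n) (Config W n) ℝ),
        kronRight (ι := Config V n) (c • A) = c • kronRight A := fun c A => Matrix.kronecker_smul c _ A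
    simp only [gibbsExp, hamReal, magReal, bond, P, Q, Zop, hs, map_sub, map_neg, map_sum, map_add,
      map_mul]
  have key : gibbsExp n (sumW w₁ w₂) β h =
      Φ (kronLeft (gibbsExp n w₁ β h) + kronRight (gibbsExp n w₂ β h)) := by
    rw [map_add, hl, hr]
    simp only [gibbsExp, hamReal, magReal, bond, P, Q, Zop, map_smul, map_sub, map_neg, map_sum,
      map_add, map_mul, Φ, ← siteOp_inl, ← siteOp_inr, Fintype.sum_sum_type, sumW, zero_smul,
      Finset.sum_const_zero, zero_add, add_zero]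
    module
  rw [logZ, key, reindexAlgEquiv_apply, ztr_reindex]
  simp only [kronLeft, kronRight, RingHom.coe_mk, MonoidHom.coe_mk, OneHom.coe_mk]
  rw [ztr_kron, Real.log_mul (ztr_pos (gibbsExp_symm h1 β h)).ne'
    (ztr_pos (gibbsExp_symm h2 β h)).ne']
  rfl

/-- An `a × b × c` box. -/
abbrev Box (a b c : ℕ) := Fin a × Fin b × Fin c

/-- ℓ¹ distance in a box. -/
def bdist {a b c : ℕ} (x y : Box a b c) : ℕ :=
  ((x.1 : ℤ) - y.1).natAbs + ((x.2.1 : ℤ) - y.2.1).natAbs + ((x.2.2 : ℤ) - y.2.2).natAbs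

/-- Nearest-neighbour weight in a box. -/
def boxW (a b c : ℕ) (x y : Box a b c) : ℝ := if bdist x y = 1 then 1 else 0

theorem boxW_weight (a b c : ℕ) : Weight (boxW a b c) where
  symm x y := by
    have : bdist x y = bdist y x := by unfold bdist; omega
    rw [boxW, boxW, this]
  self x := by simp [boxW, bdist]
  nonneg x y := by unfold boxW; split_ifs <;> norm_num

/-- `log Z` of a box. -/
def boxZ (n : ℕ) (β h : ℝ) (a b c : ℕ) : ℝ := logZ n (boxW a b c) β h

theorem boxZ_swap12 (n : ℕ) (β h : ℝ) (a b c : ℕ) : boxZ n β h a b c = boxZ n β h b a c := by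
  refine logZ_iso (⟨fun x => (x.2.1, x.1, x.2.2), fun x => (x.2.1, x.1, x.2.2), fun _ => rfl,
    fun _ => rfl⟩ : Box b a c ≃ Box a b c) _ _ (fun x y => ?_) β h
  have : bdist (a := a) (b := b) (c := c) (x.2.1, x.1, x.2.2) (y.2.1, y.1, y.2.2) = bdist x y := by
    simp only [bdist]; omega
  simp only [boxW, Equiv.coe_fn_mk, this]

theorem boxZ_swap23 (n : ℕ) (β h : ℝ) (a b c : ℕ) : boxZ n β h a b c = boxZ n β h a c b := by
  refine logZ_iso (⟨fun x => (x.1, x.2.2, x.2.1), fun x => (x.1, x.2.2, x.2.1), fun _ => rfl,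
    fun _ => rfl⟩ : Box a c b ≃ Box a b c) _ _ (fun x y => ?_) β h
  have : bdist (a := a) (b := b) (c := c) (x.1, x.2.2, x.2.1) (y.1, y.2.2, y.2.1) = bdist x y := by
    simp only [bdist]; omega
  simp only [boxW, Equiv.coe_fn_mk, this]

theorem cross_sum_le (a a' b c : ℕ) :
    ∑ x : Fin a × Fin b × Fin c, ∑ y : Fin a' × Fin b × Fin c,
      boxW (a + a') b c (Fin.castAdd a' x.1, x.2) (Fin.natAdd a y.1, y.2) ≤ (b : ℝ) * c := by
  rw [← Finset.sum_product']
  simp only [boxW, ← Finset.sum_filter, Finset.sum_const, nsmul_eq_mul, mul_one]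
  have hinj : Set.InjOn (fun p : (Fin a × Fin b × Fin c) × (Fin a' × Fin b × Fin c) => p.1.2)
      ((Finset.univ ×ˢ Finset.univ).filter fun p : (Fin a × Fin b × Fin c) × (Fin a' × Fin b × Fin c) =>
        bdist ((Fin.castAdd a' p.1.1, p.1.2) : Box (a + a') b c) (Fin.natAdd a p.2.1, p.2.2) = 1) := by
    intro p hp q hq hpq
    simp only [Finset.coe_filter, Finset.mem_product, Finset.mem_univ, and_self, true_and,
      Set.mem_ofPred_eq, bdist, Fin.val_castAdd, Fin.val_natAdd, Nat.cast_add] at hp hq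
    have := p.1.1.isLt
    have := q.1.1.isLt
    simp only at hpq
    have e1 : (p.1.2.1 : ℕ) = (q.1.2.1 : ℕ) := by rw [hpq]
    have e2 : (p.1.2.2 : ℕ) = (q.1.2.2 : ℕ) := by rw [hpq]
    refine Prod.ext (Prod.ext (Fin.ext ?_) hpq) (Prod.ext (Fin.ext ?_) (Prod.ext (Fin.ext ?_) (Fin.ext ?_)))
    all_goals omega
  calc _ ≤ ((Finset.univ : Finset (Fin b × Fin c)).card : ℝ) := by
        exact_mod_cast Finset.card_le_card_of_injOn _ (fun p _ => Finset.mem_univ _) hinj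
    _ = _ := by simp

theorem boxZ_split (n : ℕ) {β : ℝ} (hβ : 0 ≤ β) (h : ℝ) (a a' b c : ℕ) :
    |boxZ n β h (a + a') b c - boxZ n β h a b c - boxZ n β h a' b c| ≤
      2 * β * (n : ℝ) ^ 2 * ((b : ℝ) * c) := by
  set e : Box a b c ⊕ Box a' b c ≃ Box (a + a') b c :=
    (Equiv.sumProdDistrib _ _ _).symm.trans (finSumFinEquiv.prodCongr (Equiv.refl _))
  set w : Box a b c ⊕ Box a' b c → Box a b c ⊕ Box a' b c → ℝ :=
    fun x y => boxW (a + a') b c (e x) (e y) with hw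
  have hW : Weight w := ⟨fun x y => (boxW_weight _ _ _).symm _ _, fun x => (boxW_weight _ _ _).self _,
    fun x y => (boxW_weight _ _ _).nonneg _ _⟩
  have hs := sumW_weight (boxW_weight a b c) (boxW_weight a' b c)
  have h1 := logZ_weight_abs (n := n) w _ hW hs hβ h
  rw [logZ_sum (boxW_weight a b c) (boxW_weight a' b c), ← logZ_iso e w (boxW (a + a') b c)
    (fun x y => rfl) β h] at h1
  rw [sub_sub]
  refine h1.trans ?_
  have hel : ∀ x : Box a b c, e (Sum.inl x) = (Fin.castAdd a' x.1, x.2) := fun x => by simp [e]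
  have her : ∀ y : Box a' b c, e (Sum.inr y) = (Fin.natAdd a y.1, y.2) := fun x => by simp [e]
  have hll : ∀ x y : Box a b c, w (Sum.inl x) (Sum.inl y) = boxW a b c x y := fun x y => by
    have : bdist (e (Sum.inl x)) (e (Sum.inl y)) = bdist x y := by
      rw [hel, hel]; simp only [bdist, Fin.val_castAdd]
    simp only [hw, boxW, this]
  have hrr : ∀ x y : Box a' b c, w (Sum.inr x) (Sum.inr y) = boxW a' b c x y := fun x y => by
    have : bdist (e (Sum.inr x)) (e (Sum.inr y)) = bdist x y := by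
      rw [her, her]; simp only [bdist, Fin.val_natAdd, Nat.cast_add, add_sub_add_left_eq_sub]
    simp only [hw, boxW, this]
  have hlr : ∑ x, ∑ y, |w (Sum.inl x) (Sum.inr y)| ≤ (b : ℝ) * c := by
    refine le_trans (le_of_eq ?_) (cross_sum_le a a' b c)
    exact Finset.sum_congr rfl fun x _ => Finset.sum_congr rfl fun y _ => by
      rw [abs_of_nonneg (hW.nonneg _ _)]; simp only [hw, hel, her]
  have hrl : ∑ x, ∑ y, |w (Sum.inr x) (Sum.inl y)| ≤ (b : ℝ) * c := by
    rw [Finset.sum_comm]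
    refine le_trans (le_of_eq ?_) hlr
    exact Finset.sum_congr rfl fun x _ => Finset.sum_congr rfl fun y _ => by rw [hW.symm]
  simp only [Fintype.sum_sum_type, sumW, hll, hrr, sub_self, abs_zero, sub_zero,
    Finset.sum_const_zero, zero_add, add_zero]
  have hb : (0 : ℝ) ≤ β * (n : ℝ) ^ 2 := by positivity
  nlinarith [mul_le_mul_of_nonneg_left (add_le_add hlr hrl) hb]

theorem limit_of_split (F : ℕ → ℕ → ℕ → ℝ) (C : ℝ) (hC : 0 ≤ C)
    (h12 : ∀ a b c, F a b c = F b a c) (h23 : ∀ a b c, F a b c = F a c b)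
    (hs : ∀ a a' b c, |F (a + a') b c - F a b c - F a' b c| ≤ C * ((b : ℝ) * c)) :
    ∃ l, Tendsto (fun L : ℕ => F L L L / (L : ℝ) ^ 3) atTop (𝓝 l) := by
  have hzero : ∀ b c, |F 0 b c| ≤ C * ((b : ℝ) * c) := fun b c => by simpa using hs 0 0 b c
  have hmul : ∀ q a b c : ℕ, |F (q * a) b c - q * F a b c| ≤ C * ((q : ℝ) + 1) * ((b : ℝ) * c) := by
    intro q a b c
    induction q with
    | zero => simpa using hzero b c
    | succ q ih =>
      have h1 := hs (q * a) a b c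
      rw [show (q + 1) * a = q * a + a by ring]
      rw [abs_le] at ih h1 ⊢
      push_cast
      constructor <;> linarith [ih.1, ih.2, h1.1, h1.2]
  set K : ℝ := |F 1 1 1| + 6 * C with hK
  have hbase : ∀ a b c : ℕ, 1 ≤ b → 1 ≤ c → |F a b c| ≤ ((a : ℝ) + 1) * b * c * K := by
    intro a b c hb hc
    have h1 := hmul a 1 b c
    have h2 : |F 1 b c - b * F 1 1 c| ≤ C * ((b : ℝ) + 1) * c := by
      have := hmul b 1 1 c
      rw [mul_one, h12 b, h12 1 1 c] at this
      simpa using this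
    have h3 : |F 1 1 c - c * F 1 1 1| ≤ C * ((c : ℝ) + 1) := by
      have := hmul c 1 1 1
      rw [mul_one, h12 c, h23 1 c, show F 1 1 1 = F 1 1 1 from rfl] at this
      simpa using this
    rw [mul_one] at h1
    have hb' : (1 : ℝ) ≤ b := by exact_mod_cast hb
    have hc' : (1 : ℝ) ≤ c := by exact_mod_cast hc
    have ha' : (0 : ℝ) ≤ a := by positivity
    have e1 : |F a b c| ≤ (a : ℝ) * |F 1 b c| + C * ((a : ℝ) + 1) * (b * c) := by
      calc |F a b c| = |(a : ℝ) * F 1 b c + (F a b c - a * F 1 b c)| := by congr 1; ring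
        _ ≤ |(a : ℝ) * F 1 b c| + |F a b c - a * F 1 b c| := abs_add_le _ _
        _ ≤ _ := by rw [abs_mul, Nat.abs_cast]; linarith
    have e2 : |F 1 b c| ≤ (b : ℝ) * |F 1 1 c| + C * ((b : ℝ) + 1) * c := by
      calc |F 1 b c| = |(b : ℝ) * F 1 1 c + (F 1 b c - b * F 1 1 c)| := by congr 1; ring
        _ ≤ |(b : ℝ) * F 1 1 c| + |F 1 b c - b * F 1 1 c| := abs_add_le _ _
        _ ≤ _ := by rw [abs_mul, Nat.abs_cast]; linarith
    have e3 : |F 1 1 c| ≤ (c : ℝ) * |F 1 1 1| + C * ((c : ℝ) + 1) := by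
      calc |F 1 1 c| = |(c : ℝ) * F 1 1 1 + (F 1 1 c - c * F 1 1 1)| := by congr 1; ring
        _ ≤ |(c : ℝ) * F 1 1 1| + |F 1 1 c - c * F 1 1 1| := abs_add_le _ _
        _ ≤ _ := by rw [abs_mul, Nat.abs_cast]; linarith
    have f3 : |F 1 1 c| ≤ (c : ℝ) * (|F 1 1 1| + 2 * C) := by
      nlinarith [mul_nonneg hC (sub_nonneg.2 hc')]
    have f2 : |F 1 b c| ≤ (b : ℝ) * c * (|F 1 1 1| + 4 * C) := by
      have := mul_le_mul_of_nonneg_left f3 (by positivity : (0:ℝ) ≤ b)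
      nlinarith [mul_nonneg (mul_nonneg hC (by positivity : (0:ℝ) ≤ c)) (sub_nonneg.2 hb')]
    have := mul_le_mul_of_nonneg_left f2 ha'
    rw [hK]
    nlinarith [mul_nonneg (mul_nonneg (mul_nonneg hC ha') (by positivity : (0:ℝ) ≤ b)) (by positivity : (0:ℝ) ≤ c),
      mul_nonneg (mul_nonneg hC (by positivity : (0:ℝ) ≤ b)) (by positivity : (0:ℝ) ≤ c),
      mul_nonneg (mul_nonneg (abs_nonneg (F 1 1 1)) (by positivity : (0:ℝ) ≤ b)) (by positivity : (0:ℝ) ≤ c)]
  have happrox : ∀ q l r : ℕ, 1 ≤ q → 1 ≤ l → r < l →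
      |F (q * l + r) (q * l + r) (q * l + r) - (q : ℝ) ^ 3 * F l l l| ≤
        12 * C * (q : ℝ) ^ 3 * (l : ℝ) ^ 2 + 6 * (K + C) * (l : ℝ) * ((q * l + r : ℕ) : ℝ) ^ 2 := by
    intro q l r hq hl hr
    set M := q * l with hM
    set L := M + r with hL
    have hM1 : 1 ≤ M := Nat.one_le_iff_ne_zero.2 (Nat.mul_ne_zero (by omega) (by omega))
    have hstep : ∀ b c : ℕ, 1 ≤ b → b ≤ L → 1 ≤ c → c ≤ L →
        |F L b c - F M b c| ≤ 2 * (K + C) * (l : ℝ) * (L : ℝ) ^ 2 := by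
      intro b c hb hbL hc hcL
      have h1 := hs M r b c
      have h2 := hbase r b c hb hc
      have hb' : (b : ℝ) ≤ L := by exact_mod_cast hbL
      have hc' : (c : ℝ) ≤ L := by exact_mod_cast hcL
      have hr' : (r : ℝ) + 1 ≤ l := by exact_mod_cast hr
      have hl' : (1 : ℝ) ≤ l := by exact_mod_cast hl
      have hbc : (b : ℝ) * c ≤ (L : ℝ) ^ 2 := by rw [sq]; gcongr
      have hKC : 0 ≤ K := by rw [hK]; positivity
      have : ((r : ℝ) + 1) * b * c * K + C * ((b : ℝ) * c) ≤ 2 * (K + C) * l * (L : ℝ) ^ 2 := by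
        have g1 : ((r : ℝ) + 1) * b * c * K ≤ l * (L : ℝ) ^ 2 * K := by
          rw [mul_assoc ((r : ℝ) + 1)]; gcongr
        have g2 : C * ((b : ℝ) * c) ≤ C * (l * (L : ℝ) ^ 2) := by
          refine mul_le_mul_of_nonneg_left (hbc.trans ?_) hC
          exact le_mul_of_one_le_left (sq_nonneg _) hl'
        nlinarith [mul_nonneg (mul_nonneg (add_nonneg hKC hC) (by positivity : (0:ℝ) ≤ l)) (sq_nonneg (L : ℝ))]
      rw [abs_le] at h1 h2 ⊢
      constructor <;> linarith [h1.1, h1.2, h2.1, h2.2]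
    have hML : M ≤ L := Nat.le_add_right _ _
    have s1 := hstep L L (by omega) le_rfl (by omega) le_rfl
    have s2 := hstep M L hM1 hML (by omega) le_rfl
    rw [h12 L M L] at s2
    have s3 := hstep M M hM1 hML hM1 hML
    rw [h12 L M M, h23 M L M] at s3
    have m1 := hmul q l M M
    have m2 : |F M l M - q * F l l M| ≤ C * ((q : ℝ) + 1) * ((l : ℝ) * M) → True := fun _ => trivial
    have n1 := hmul q l l M
    rw [← hM, h12 M l M] at n1
    have n2 := hmul q l l l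
    rw [← hM, h12 M l l, h23 l M l] at n2
    rw [← hM] at m1
    have hq' : (1 : ℝ) ≤ q := by exact_mod_cast hq
    have hl' : (1 : ℝ) ≤ l := by exact_mod_cast hl
    have hMq : (M : ℝ) = q * l := by rw [hM]; push_cast; ring
    have q1 : C * ((q : ℝ) + 1) * ((M : ℝ) * M) ≤ 2 * C * (q : ℝ) ^ 3 * (l : ℝ) ^ 2 := by
      rw [hMq]
      nlinarith [mul_nonneg (mul_nonneg hC (sub_nonneg.2 hq')) (sq_nonneg ((q : ℝ) * l))]
    have q2 : (q : ℝ) * (C * ((q : ℝ) + 1) * ((l : ℝ) * M)) ≤ 2 * C * (q : ℝ) ^ 3 * (l : ℝ) ^ 2 := by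
      rw [hMq]
      nlinarith [mul_nonneg (mul_nonneg hC (sub_nonneg.2 hq')) (sq_nonneg ((q : ℝ) * l))]
    have q3 : (q : ℝ) ^ 2 * (C * ((q : ℝ) + 1) * ((l : ℝ) * l)) ≤ 2 * C * (q : ℝ) ^ 3 * (l : ℝ) ^ 2 := by
      nlinarith [mul_nonneg (mul_nonneg hC (sub_nonneg.2 hq')) (sq_nonneg ((q : ℝ) * l))]
    have k1 : |F M M M - q * F l M M| ≤ 2 * C * (q : ℝ) ^ 3 * (l : ℝ) ^ 2 := m1.trans q1
    have k2 : |(q : ℝ) * F l M M - (q : ℝ) ^ 2 * F l l M| ≤ 2 * C * (q : ℝ) ^ 3 * (l : ℝ) ^ 2 := by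
      refine le_trans ?_ q2
      rw [show (q : ℝ) * F l M M - (q : ℝ) ^ 2 * F l l M = q * (F l M M - q * F l l M) by ring,
        abs_mul, Nat.abs_cast]
      gcongr
    have k3 : |(q : ℝ) ^ 2 * F l l M - (q : ℝ) ^ 3 * F l l l| ≤ 2 * C * (q : ℝ) ^ 3 * (l : ℝ) ^ 2 := by
      refine le_trans ?_ q3
      rw [show (q : ℝ) ^ 2 * F l l M - (q : ℝ) ^ 3 * F l l l = q ^ 2 * (F l l M - q * F l l l) by ring,
        abs_mul, abs_of_nonneg (sq_nonneg (q : ℝ))]
      gcongr
    have hnn : 0 ≤ C * (q : ℝ) ^ 3 * (l : ℝ) ^ 2 := by positivity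
    rw [abs_le] at s1 s2 s3 k1 k2 k3 ⊢
    constructor <;> linarith [s1.1, s1.2, s2.1, s2.2, s3.1, s3.2, k1.1, k1.2, k2.1, k2.2, k3.1, k3.2]
  refine cauchySeq_tendsto_of_complete (Metric.cauchySeq_iff'.2 fun ε hε => ?_)
  obtain ⟨l, hl⟩ := exists_nat_gt (max 1 (12 * C / (ε / 8)))
  have hl1 : 1 ≤ l := by
    have : (1 : ℝ) < l := lt_of_le_of_lt (le_max_left _ _) hl
    exact_mod_cast this.le
  have hl' : (0 : ℝ) < l := by exact_mod_cast hl1
  set c0 := F l l l / (l : ℝ) ^ 3 with hc0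
  have hev : ∀ᶠ L : ℕ in atTop, |F L L L / (L : ℝ) ^ 3 - c0| < ε / 2 := by
    set B := 6 * (K + C) * (l : ℝ) + 3 * (l : ℝ) * |c0| with hB
    obtain ⟨L0, hL0⟩ := exists_nat_gt (B / (ε / 4))
    refine eventually_atTop.2 ⟨max L0 l + 1, fun L hL => ?_⟩
    have hLl : l ≤ L := by omega
    set q := L / l with hq
    set r := L % l with hr
    have hLqr : q * l + r = L := Nat.div_add_mod' L l
    have hq1 : 1 ≤ q := Nat.div_pos hLl (by omega)
    have hrl : r < l := Nat.mod_lt _ (by omega)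
    have ha := happrox q l r hq1 hl1 hrl
    rw [hLqr] at ha
    have hLpos : (0 : ℝ) < L := by exact_mod_cast (by omega : 0 < L)
    have hLcast : (L : ℝ) = q * l + r := by exact_mod_cast hLqr.symm
    have hr' : (r : ℝ) ≤ l := by exact_mod_cast hrl.le
    have hr0 : (0 : ℝ) ≤ r := by positivity
    have hqlL : (q : ℝ) * l ≤ L := by linarith
    have hcube : (q : ℝ) ^ 3 * (l : ℝ) ^ 3 ≤ (L : ℝ) ^ 3 := by
      rw [← mul_pow]; gcongr
    have hdiffcube : (L : ℝ) ^ 3 - (q : ℝ) ^ 3 * (l : ℝ) ^ 3 ≤ 3 * l * (L : ℝ) ^ 2 := by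
      rw [← mul_pow]
      have hM0 : 0 ≤ (q : ℝ) * l := by positivity
      nlinarith [mul_le_mul_of_nonneg_left hqlL hM0, mul_le_mul_of_nonneg_left hqlL hLpos.le,
        sq_nonneg ((L : ℝ) - q * l)]
    have h12C : 12 * C / (l : ℝ) < ε / 8 := by
      have := lt_of_le_of_lt (le_max_right _ _) hl
      rw [div_lt_iff₀ (by positivity)] at this
      rw [div_lt_iff₀ hl']
      linarith
    have hBL : B < (ε / 4) * L := by
      have h1 : B / (ε / 4) < L := hL0.trans_le (by exact_mod_cast (by omega : L0 ≤ L))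
      rw [div_lt_iff₀ (by positivity)] at h1
      linarith
    have key : |F L L L - c0 * (L : ℝ) ^ 3| < ε / 2 * (L : ℝ) ^ 3 := by
      have e1 : |F L L L - c0 * (L : ℝ) ^ 3| ≤ |F L L L - (q : ℝ) ^ 3 * F l l l|
          + |c0| * ((L : ℝ) ^ 3 - (q : ℝ) ^ 3 * (l : ℝ) ^ 3) := by
        rw [← abs_of_nonneg (sub_nonneg.2 hcube), ← abs_mul]
        refine (abs_sub_le _ ((q : ℝ) ^ 3 * F l l l) _).trans (le_of_eq ?_)
        congr 1
        rw [abs_sub_comm]
        congr 1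
        rw [hc0]; field_simp
      have e2 : 12 * C * (q : ℝ) ^ 3 * (l : ℝ) ^ 2 ≤ ε / 8 * (L : ℝ) ^ 3 := by
        calc 12 * C * (q : ℝ) ^ 3 * (l : ℝ) ^ 2 = 12 * C / l * ((q : ℝ) ^ 3 * (l : ℝ) ^ 3) := by
              field_simp
          _ ≤ ε / 8 * (L : ℝ) ^ 3 := by gcongr
      have e3 : (6 * (K + C) * (l : ℝ) + 3 * (l : ℝ) * |c0|) * (L : ℝ) ^ 2 < ε / 4 * (L : ℝ) ^ 3 := by
        rw [← hB, show (L : ℝ) ^ 3 = L * L ^ 2 by ring, ← mul_assoc]
        exact mul_lt_mul_of_pos_right hBL (by positivity)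
      have e4 := mul_le_mul_of_nonneg_left hdiffcube (abs_nonneg c0)
      have : 0 < ε / 8 * (L : ℝ) ^ 3 := by positivity
      linarith
    rw [show F L L L / (L : ℝ) ^ 3 - c0 = (F L L L - c0 * (L : ℝ) ^ 3) / (L : ℝ) ^ 3 by field_simp,
      abs_div, abs_of_pos (pow_pos hLpos 3), div_lt_iff₀ (pow_pos hLpos 3)]
    exact key
  obtain ⟨N0, hN0⟩ := eventually_atTop.1 hev
  refine ⟨N0, fun L hL => ?_⟩
  have h1 := hN0 L hL
  have h2 := hN0 N0 le_rfl
  rw [Real.dist_eq]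
  rw [abs_lt] at h1 h2 ⊢
  constructor <;> linarith [h1.1, h1.2, h2.1, h2.2]

/-- The cube `Site N` as a box. -/
def siteBox (N : ℕ) : Site N ≃ Box (2 * N + 1) (2 * N + 1) (2 * N + 1) :=
  ⟨fun x => (x 0, x 1, x 2), fun y => ![y.1, y.2.1, y.2.2],
    fun x => by funext j; fin_cases j <;> rfl, fun y => rfl⟩

theorem logZ_cube (n N : ℕ) (β h : ℝ) :
    logZ n (cubeW N) β h = boxZ n β h (2 * N + 1) (2 * N + 1) (2 * N + 1) := by
  refine (logZ_iso (siteBox N) _ _ (fun x y => ?_) β h).symm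
  have : bdist (siteBox N x) (siteBox N y) = dist1 x y := by
    rw [dist1, Fin.sum_univ_three]; rfl
  simp only [boxW, cubeW, this]

theorem thermo_limit (n : ℕ) {β : ℝ} (hβ : 0 < β) (h : ℝ) :
    ∃ p, Tendsto (fun N : ℕ => logZ n (cubeW N) β h / (β * (Fintype.card (Site N) : ℝ))) atTop (𝓝 p) := by
  obtain ⟨l, hl⟩ := limit_of_split (boxZ n β h) (2 * β * (n : ℝ) ^ 2) (by positivity)
    (boxZ_swap12 n β h) (boxZ_swap23 n β h) (fun a a' b c => boxZ_split n hβ.le h a a' b c)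
  refine ⟨l / β, ?_⟩
  have h2 : Tendsto (fun N : ℕ => 2 * N + 1) atTop atTop :=
    tendsto_atTop_atTop.2 fun b => ⟨b, fun a ha => by omega⟩
  refine ((hl.comp h2).div_const β).congr fun N => ?_
  simp only [Function.comp_apply, logZ_cube, Fintype.card_fun, Fintype.card_fin, div_div]
  push_cast
  ring

end

end Vale.Agent.P361
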