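import Mathlib
import Vale.Agent.P361.Thermo

/-! The sharp lower half of Bloch's law. -/

namespace Vale.Agent.P361

noncomputable section

open Matrix Filter Topology
open scoped BigOperators

/-- Entrywise embedding of real matrices into complex ones. -/
def toC {ι : Type} [Fintype ι] [DecidableEq ι] : Matrix ι ι ℝ →+* Matrix ι ι ℂ :=
  Complex.ofRealHom.mapMatrix

theorem toC_smul {ι : Type} [Fintype ι] [DecidableEq ι] (c : ℝ) (A : Matrix ι ι ℝ) :
    toC (c • A) = (c : ℂ) • toC A := by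
  ext i j; simp [toC]

theorem toC_site {V : Type} [Fintype V] [DecidableEq V] {n : ℕ} (x : V)
    (a : Matrix (Fin (n + 1)) (Fin (n + 1)) ℝ) : toC (siteOp x a) = siteOp x (toC a) := by
  ext σ τ
  simp [toC, siteOp, apply_ite Complex.ofRealHom]

theorem raising_eq (n : ℕ) : raising n = toC (sP n) := by
  ext i j
  simp [toC, raising, sP, apply_ite Complex.ofRealHom]

theorem raisingH_eq (n : ℕ) : (raising n)ᴴ = toC (sP n)ᵀ := by
  ext i j
  simp [raising_eq, toC, Complex.conj_ofReal]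

theorem spinMat2_eq (n : ℕ) : spinMat n 2 = toC (sZ n) := by
  ext i j
  by_cases h : i = j
  · subst h; simp [spinMat, toC, sZ]
  · simp [spinMat, toC, sZ, h]

theorem bond_eq {V : Type} [Fintype V] [DecidableEq V] (n : ℕ) (x y : V) :
    ∑ a : Fin 3, siteOp x (spinMat n a) * siteOp y (spinMat n a) = toC (bond n x y) := by
  rw [Fin.sum_univ_three, spinMat2_eq]
  simp only [bond, P, Q, Zop, map_add, map_mul, toC_smul, toC_site, ← raising_eq, ← raisingH_eq]
  simp only [spinMat, siteOp_smul, siteOp_add, siteOp_sub, smul_mul_assoc, mul_smul_comm,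
    add_mul, mul_add, sub_mul, mul_sub]
  simp only [smul_sub, smul_add, smul_smul]
  have hI : (2 * Complex.I)⁻¹ * (2 * Complex.I)⁻¹ = -(1 / 4 : ℂ) := by
    rw [← mul_inv, show (2 * Complex.I) * (2 * Complex.I) = 4 * (Complex.I * Complex.I) by ring,
      Complex.I_mul_I]
    norm_num
  have h2 : (2 : ℂ)⁻¹ * (2 : ℂ)⁻¹ = (1 / 4 : ℂ) := by norm_num
  rw [hI, h2]
  push_cast
  module

theorem pressure_eq (n N : ℕ) (β h : ℝ) :
    pressure n N β h = logZ n (cubeW N) β h / (β * (Fintype.card (Site N) : ℝ)) := by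
  have hterm : ∀ x y : Site N,
      (if dist1 x y = 1 then ∑ a : Fin 3, siteOp x (spinMat n a) * siteOp y (spinMat n a) else 0) =
      (cubeW N x y : ℂ) • toC (bond n x y) := by
    intro x y
    by_cases hd : dist1 x y = 1
    · simp [hd, cubeW, bond_eq]
    · simp [hd, cubeW]
  have hH : hamiltonian n N - (h : ℂ) • magnetization n N = toC (hamReal n (cubeW N) h) := by
    simp only [hamiltonian, hterm, hamReal, magReal, magnetization, map_sub, map_neg, map_sum,
      toC_smul, spinMat2_eq, Zop, toC_site]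
    norm_num
  have hexp : NormedSpace.exp (toC (gibbsExp n (cubeW N) β h)) =
      toC (NormedSpace.exp (gibbsExp n (cubeW N) β h)) := by
    have hc : Continuous (toC (ι := Config (Site N) n)) :=
      continuous_id.matrix_map Complex.continuous_ofReal
    open scoped Norms.Operator in
    exact (NormedSpace.map_exp (toC (ι := Config (Site N) n)) (by exact hc) _).symm
  rw [pressure, hH, ← Complex.ofReal_neg, ← toC_smul, ← gibbsExp, hexp, logZ, ztr]
  congr 2
  simp [toC, Matrix.trace, Complex.re_sum]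

theorem pressure_tendsto (n : ℕ) {β : ℝ} (hβ : 0 < β) (h : ℝ) :
    ∃ p, Tendsto (fun N => pressure n N β h) atTop (𝓝 p) := by
  simp only [pressure_eq]
  exact thermo_limit n hβ h

/-- The limiting pressure. -/
def plim (n : ℕ) (β h : ℝ) : ℝ := limUnder atTop fun N => pressure n N β h

theorem plim_tendsto (n : ℕ) {β : ℝ} (hβ : 0 < β) (h : ℝ) :
    Tendsto (fun N => pressure n N β h) atTop (𝓝 (plim n β h)) :=
  tendsto_nhds_limUnder (pressure_tendsto n hβ h)

/-- Finite-volume magnetization per site. -/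
def muN (n N : ℕ) (β h : ℝ) : ℝ :=
  (∑ x : Site N, avg (gibbsExp n (cubeW N) β h) (Zop n x)) / (Fintype.card (Site N) : ℝ)

theorem pressure_support (n N : ℕ) {β : ℝ} (hβ : 0 < β) (h h' : ℝ) :
    pressure n N β h + (h' - h) * muN n N β h ≤ pressure n N β h' := by
  simp only [pressure_eq, muN]
  have hC : (0 : ℝ) < (Fintype.card (Site N) : ℝ) := by positivity
  have := logZ_field (n := n) (cubeW N) (cubeW_weight N) β h h'
  rw [show ∀ a b : ℝ, a / (β * (Fintype.card (Site N) : ℝ)) + (h' - h) * (b / (Fintype.card (Site N) : ℝ))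
    = (a + β * (h' - h) * b) / (β * (Fintype.card (Site N) : ℝ)) from fun a b => by field_simp]
  exact div_le_div_of_nonneg_right this (by positivity)

theorem pressure_convex (n N : ℕ) {β : ℝ} (hβ : 0 < β) :
    ConvexOn ℝ Set.univ (pressure n N β) := by
  refine ⟨convex_univ, fun x _ y _ a b ha hb hab => ?_⟩
  simp only [smul_eq_mul]
  have h1 := mul_le_mul_of_nonneg_left (pressure_support n N hβ (a * x + b * y) x) ha
  have h2 := mul_le_mul_of_nonneg_left (pressure_support n N hβ (a * x + b * y) y) hb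
  have hb' : b = 1 - a := by linarith
  subst hb'
  linarith

theorem plim_convex (n : ℕ) {β : ℝ} (hβ : 0 < β) : ConvexOn ℝ Set.univ (plim n β) := by
  refine ⟨convex_univ, fun x _ y _ a b ha hb hab => ?_⟩
  simp only [smul_eq_mul]
  refine le_of_tendsto_of_tendsto' (plim_tendsto n hβ _)
    (((plim_tendsto n hβ x).const_mul a).add ((plim_tendsto n hβ y).const_mul b)) fun N => ?_
  simpa using (pressure_convex n N hβ).2 (Set.mem_univ x) (Set.mem_univ y) ha hb hab

/-- The spontaneous magnetization, the right derivative of the pressure at zero field. -/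
def mag (n : ℕ) (β : ℝ) : ℝ := derivWithin (plim n β) (Set.Ioi 0) 0

theorem mag_hasDeriv (n : ℕ) {β : ℝ} (hβ : 0 < β) :
    HasDerivWithinAt (plim n β) (mag n β) (Set.Ioi 0) 0 :=
  (plim_convex n hβ).hasDerivWithinAt_rightDeriv_of_mem_interior (by simp)

theorem mag_le_slope (n : ℕ) {β h : ℝ} (hβ : 0 < β) (hh : 0 < h) :
    mag n β ≤ slope (plim n β) 0 h :=
  (plim_convex n hβ).rightDeriv_le_slope_of_mem_interior (by simp) (Set.mem_univ h) hh

theorem slope_tendsto_mag (n : ℕ) {β : ℝ} (hβ : 0 < β) :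
    Tendsto (fun h => slope (plim n β) 0 h) (𝓝[>] (0 : ℝ)) (𝓝 (mag n β)) := by
  have := hasDerivWithinAt_iff_tendsto_slope.1 (mag_hasDeriv n hβ)
  simpa using this

/-- The one-dimensional Gaussian lower bound `(1/π) ∫₀³ exp(-c t²)`. -/
def gauss1 (c : ℝ) : ℝ := (∫ t in (0 : ℝ)..3, Real.exp (-c * t ^ 2)) / Real.pi

theorem theta_sum_ge {N : ℕ} {c : ℝ} (hc : 0 < c) (hN : 3 ≤ 2 * Real.pi * N / (2 * (N : ℝ) + 1)) :
    (gauss1 c - 1 / (2 * (N : ℝ) + 1)) ≤
      (∑ a : Fin (2 * N + 1), Real.exp (-c * theta N a ^ 2)) / (2 * (N : ℝ) + 1) := by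
  set L : ℝ := 2 * (N : ℝ) + 1 with hL
  have hLpos : 0 < L := by positivity
  set δ : ℝ := 2 * Real.pi / L with hδ
  have hδpos : 0 < δ := by positivity
  set f : ℝ → ℝ := fun t => Real.exp (-c * (δ * t) ^ 2) with hf
  have hterm : ∀ a : Fin (2 * N + 1), Real.exp (-c * theta N a ^ 2) = f ((a : ℝ) - N) := by
    intro a; simp only [hf, theta, hδ, hL]; ring_nf
  simp_rw [hterm]
  have hsum : 2 * (∑ i ∈ Finset.range N, f i) - 1 ≤ ∑ a : Fin (2 * N + 1), f ((a : ℝ) - N) := by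
    rw [Fin.sum_univ_eq_sum_range (fun a => f ((a : ℝ) - N))]
    rw [show 2 * N + 1 = N + (N + 1) by omega, Finset.sum_range_add]
    have e1 : ∑ i ∈ Finset.range N, f ((i : ℝ) - N) = ∑ i ∈ Finset.range N, f ((i : ℝ) + 1) := by
      rw [← Finset.sum_range_reflect]
      refine Finset.sum_congr rfl fun i hi => ?_
      rw [Finset.mem_range] at hi
      have : ((N - 1 - i : ℕ) : ℝ) = (N : ℝ) - 1 - i := by
        rw [Nat.cast_sub (by omega), Nat.cast_sub (by omega)]; push_cast; ring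
      rw [this]; simp only [hf]; ring_nf
    have e2 : ∑ i ∈ Finset.range (N + 1), f (((N + i : ℕ) : ℝ) - N) = ∑ i ∈ Finset.range (N + 1), f i := by
      refine Finset.sum_congr rfl fun i _ => ?_
      push_cast; ring_nf
    have e3 : ∑ i ∈ Finset.range (N + 1), f i = (∑ i ∈ Finset.range N, f ((i : ℝ) + 1)) + f 0 := by
      rw [Finset.sum_range_succ']; simp
    have e4 := Finset.sum_range_succ (fun i : ℕ => f i) N
    rw [e1, e2]
    have : f 0 = 1 := by simp [hf]
    have : 0 < f N := Real.exp_pos _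
    linarith
  have hanti : AntitoneOn f (Set.Icc (0 : ℝ) (0 + N)) := by
    intro s hs t ht hst
    refine Real.exp_le_exp.2 ?_
    have : (δ * s) ^ 2 ≤ (δ * t) ^ 2 := pow_le_pow_left₀ (mul_nonneg hδpos.le hs.1) (by gcongr) 2
    nlinarith
  have hint : ∫ t in (0 : ℝ)..(N : ℝ), f t ≤ ∑ i ∈ Finset.range N, f i := by
    simpa using hanti.integral_le_sum
  have hscale : ∫ t in (0 : ℝ)..(N : ℝ), f t = δ⁻¹ * ∫ t in (0 : ℝ)..δ * N, Real.exp (-c * t ^ 2) := by
    rw [hf, intervalIntegral.integral_comp_mul_left (f := fun t => Real.exp (-c * t ^ 2)) hδpos.ne',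
      mul_zero, smul_eq_mul]
  have hδN : (3 : ℝ) ≤ δ * N := hN.trans_eq (by rw [hδ]; ring)
  have hmono : (∫ t in (0 : ℝ)..3, Real.exp (-c * t ^ 2)) ≤ ∫ t in (0 : ℝ)..δ * N, Real.exp (-c * t ^ 2) :=
    intervalIntegral.integral_mono_interval le_rfl (by norm_num) hδN
      (Eventually.of_forall fun t => (Real.exp_pos _).le)
      ((by fun_prop : Continuous fun t : ℝ => Real.exp (-c * t ^ 2)).intervalIntegrable _ _)
  rw [le_div_iff₀ hLpos]
  have h2 : gauss1 c * L = 2 * (δ⁻¹ * ∫ t in (0 : ℝ)..3, Real.exp (-c * t ^ 2)) := by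
    rw [gauss1, hδ]; field_simp
  have h3 := mul_le_mul_of_nonneg_left hmono (inv_nonneg.2 hδpos.le)
  rw [sub_mul, one_div_mul_cancel hLpos.ne', h2]
  linarith

theorem geom_partial {x : ℝ} (hx : 0 < x) (J : ℕ) :
    ∑ j ∈ Finset.range J, Real.exp (-((j : ℝ) + 1) * x) ≤ 1 / (Real.exp x - 1) := by
  set q := Real.exp (-x) with hq
  have hq1 : q < 1 := Real.exp_lt_one_iff.2 (by linarith)
  have hq0 : 0 < q := Real.exp_pos _
  have he : ∀ j : ℕ, Real.exp (-((j : ℝ) + 1) * x) = q * q ^ j := by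
    intro j
    rw [hq, ← Real.exp_nat_mul, ← Real.exp_add]; ring_nf
  simp_rw [he]
  rw [← Finset.mul_sum]
  have : 1 / (Real.exp x - 1) = q * (1 - q)⁻¹ := by
    have h1 : Real.exp x = q⁻¹ := by rw [hq, Real.exp_neg, inv_inv]
    rw [h1]; field_simp
  rw [this]
  refine mul_le_mul_of_nonneg_left ?_ hq0.le
  have hs := summable_geometric_of_lt_one hq0.le hq1
  exact (hs.sum_le_tsum _ (fun i _ => pow_nonneg hq0.le i)).trans (tsum_geometric_of_lt_one hq0.le hq1).le

theorem finite_lower {n N : ℕ} (hn : 1 ≤ n) {β h s : ℝ} (hβ : 0 < β) (hh : 0 < h) (hs : 0 < s)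
    (hsμ : s ≤ muN n N β h) (hN : 3 ≤ 2 * Real.pi * N / (2 * (N : ℝ) + 1)) (J : ℕ) :
    s / spin n * ∑ j ∈ Finset.range J, Real.exp (-((j : ℝ) + 1) * β * h) *
      (gauss1 (((j : ℝ) + 1) * β * spin n ^ 2 / s) - 1 / (2 * (N : ℝ) + 1)) ^ 3
      ≤ spin n - muN n N β h := by
  have hspin : 0 < spin n := by
    have : (1 : ℝ) ≤ n := by exact_mod_cast hn
    rw [spin]; positivity
  set μ := muN n N β h
  have hμ : 0 < μ := hs.trans_le hsμ
  refine le_trans ?_ (cube_bound hβ μ rfl hμ hn)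
  set C : ℝ := (Fintype.card (Site N) : ℝ) with hC
  have hCv : C = (2 * (N : ℝ) + 1) ^ 3 := by simp [hC]
  have hCpos : 0 < C := by rw [hCv]; positivity
  have hstep : ∑ j ∈ Finset.range J, Real.exp (-((j : ℝ) + 1) * β * h) *
      (gauss1 (((j : ℝ) + 1) * β * spin n ^ 2 / s) - 1 / (2 * (N : ℝ) + 1)) ^ 3 ≤
      (∑ k : Site N, 1 / (Real.exp (β * (spin n ^ 2 * (∑ i, theta N (k i) ^ 2) / μ + h)) - 1)) / C := by
    rw [le_div_iff₀ hCpos, Finset.sum_mul]
    calc _ ≤ ∑ j ∈ Finset.range J, ∑ k : Site N,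
          Real.exp (-((j : ℝ) + 1) * (β * (spin n ^ 2 * (∑ i, theta N (k i) ^ 2) / μ + h))) := by
          refine Finset.sum_le_sum fun j _ => ?_
          set c := ((j : ℝ) + 1) * β * spin n ^ 2 / s with hc
          have hcpos : 0 < c := by positivity
          have h1 := theta_sum_ge hcpos hN
          have hcube := (Odd.strictMono_pow (R := ℝ) (⟨1, rfl⟩ : Odd 3)).monotone h1
          rw [div_pow, ← hCv, Finset.sum_pow'] at hcube
          rw [le_div_iff₀ hCpos] at hcube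
          rw [mul_assoc (Real.exp _)]
          refine (mul_le_mul_of_nonneg_left hcube (Real.exp_pos _).le).trans ?_
          rw [Fintype.piFinset_univ, Finset.mul_sum]
          refine Finset.sum_le_sum fun k _ => ?_
          rw [← Real.exp_sum, ← Real.exp_add, Real.exp_le_exp]
          rw [← Finset.mul_sum]
          have : ((j : ℝ) + 1) * (β * (spin n ^ 2 * (∑ i, theta N (k i) ^ 2) / μ)) ≤
              c * ∑ i, theta N (k i) ^ 2 := by
            rw [hc, show ((j : ℝ) + 1) * (β * (spin n ^ 2 * (∑ i, theta N (k i) ^ 2) / μ)) =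
              (((j : ℝ) + 1) * β * spin n ^ 2 / μ) * ∑ i, theta N (k i) ^ 2 by ring]
            gcongr
          linarith
      _ = ∑ k : Site N, ∑ j ∈ Finset.range J,
          Real.exp (-((j : ℝ) + 1) * (β * (spin n ^ 2 * (∑ i, theta N (k i) ^ 2) / μ + h))) :=
          Finset.sum_comm
      _ ≤ _ := Finset.sum_le_sum fun k _ => geom_partial (by positivity) J
  have hnn : 0 ≤ (∑ k : Site N, 1 / (Real.exp (β * (spin n ^ 2 * (∑ i, theta N (k i) ^ 2) / μ + h)) - 1)) / C := by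
    refine div_nonneg (Finset.sum_nonneg fun k _ => ?_) hCpos.le
    exact one_div_nonneg.2 (sub_nonneg.2 (Real.one_le_exp_iff.2 (by positivity)))
  calc _ ≤ s / spin n * _ := mul_le_mul_of_nonneg_left hstep (by positivity)
    _ ≤ μ / spin n * _ := mul_le_mul_of_nonneg_right (by gcongr) hnn

theorem limit_lower {n : ℕ} (hn : 1 ≤ n) {β s : ℝ} (hβ : 0 < β) (hs : 0 < s) (hsm : s < mag n β)
    (J : ℕ) :
    s / spin n * ∑ j ∈ Finset.range J, gauss1 (((j : ℝ) + 1) * β * spin n ^ 2 / s) ^ 3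
      ≤ spin n - mag n β := by
  have hfix : ∀ h : ℝ, 0 < h →
      s / spin n * ∑ j ∈ Finset.range J, Real.exp (-((j : ℝ) + 1) * β * h) *
        gauss1 (((j : ℝ) + 1) * β * spin n ^ 2 / s) ^ 3 ≤ spin n - slope (plim n β) 0 h := by
    intro h hh
    have hslN : Tendsto (fun N => slope (pressure n N β) 0 h) atTop (𝓝 (slope (plim n β) 0 h)) := by
      simp only [slope_def_field]
      exact ((plim_tendsto n hβ h).sub (plim_tendsto n hβ 0)).div_const _
    have hev : ∀ᶠ N in atTop, s < slope (pressure n N β) 0 h :=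
      hslN.eventually (Ioi_mem_nhds (hsm.trans_le (mag_le_slope n hβ hh)))
    have hle : ∀ N, slope (pressure n N β) 0 h ≤ muN n N β h := by
      intro N
      rw [slope_def_field, sub_zero, div_le_iff₀ hh]
      have := pressure_support n N hβ h 0
      linarith
    have hN3 : ∀ᶠ N : ℕ in atTop, 3 ≤ 2 * Real.pi * N / (2 * (N : ℝ) + 1) := by
      refine eventually_atTop.2 ⟨11, fun N hN => ?_⟩
      rw [le_div_iff₀ (by positivity)]
      have : (11 : ℝ) ≤ N := by exact_mod_cast hN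
      nlinarith [Real.pi_gt_d2]
    have hz : Tendsto (fun N : ℕ => 1 / (2 * (N : ℝ) + 1)) atTop (𝓝 0) :=
      Tendsto.div_atTop tendsto_const_nhds
        (tendsto_atTop_add_const_right _ _ (tendsto_natCast_atTop_atTop.const_mul_atTop two_pos))
    have hlhs : Tendsto (fun N : ℕ => s / spin n * ∑ j ∈ Finset.range J, Real.exp (-((j : ℝ) + 1) * β * h) *
        (gauss1 (((j : ℝ) + 1) * β * spin n ^ 2 / s) - 1 / (2 * (N : ℝ) + 1)) ^ 3) atTop
        (𝓝 (s / spin n * ∑ j ∈ Finset.range J, Real.exp (-((j : ℝ) + 1) * β * h) *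
        gauss1 (((j : ℝ) + 1) * β * spin n ^ 2 / s) ^ 3)) := by
      refine Tendsto.const_mul _ (tendsto_finsetSum _ fun j _ => ?_)
      have := (((tendsto_const_nhds (x := gauss1 (((j : ℝ) + 1) * β * spin n ^ 2 / s))).sub hz).pow 3).const_mul
        (Real.exp (-((j : ℝ) + 1) * β * h))
      simpa using this
    refine le_of_tendsto_of_tendsto hlhs (tendsto_const_nhds.sub hslN) ?_
    filter_upwards [hev, hN3] with N h1 h2
    have := finite_lower hn hβ hh hs (h1.le.trans (hle N)) h2 J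
    linarith [hle N]
  have hl : Tendsto (fun h => s / spin n * ∑ j ∈ Finset.range J, Real.exp (-((j : ℝ) + 1) * β * h) *
      gauss1 (((j : ℝ) + 1) * β * spin n ^ 2 / s) ^ 3) (𝓝[>] (0 : ℝ))
      (𝓝 (s / spin n * ∑ j ∈ Finset.range J, gauss1 (((j : ℝ) + 1) * β * spin n ^ 2 / s) ^ 3)) := by
    refine tendsto_nhdsWithin_of_tendsto_nhds ?_
    have hcont : Continuous fun h => s / spin n * ∑ j ∈ Finset.range J,
        Real.exp (-((j : ℝ) + 1) * β * h) * gauss1 (((j : ℝ) + 1) * β * spin n ^ 2 / s) ^ 3 := by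
      fun_prop
    simpa using hcont.tendsto 0
  exact le_of_tendsto_of_tendsto hl (tendsto_const_nhds.sub (slope_tendsto_mag n hβ))
    (eventually_nhdsWithin_of_forall hfix)

theorem gauss1_asymp {a : ℝ} (ha : 0 < a) :
    Tendsto (fun β : ℝ => β ^ (3 / 2 : ℝ) * gauss1 (a * β) ^ 3) atTop
      (𝓝 (1 / (8 * Real.pi ^ (3 / 2 : ℝ) * a ^ (3 / 2 : ℝ)))) := by
  have hint := MeasureTheory.intervalIntegral_tendsto_integral_Ioi (f := fun t : ℝ => Real.exp (-1 * t ^ 2))
    (b := fun β : ℝ => 3 * Real.sqrt (a * β)) (l := atTop) 0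
    (integrableOn_Ioi_exp_neg_mul_sq_iff.2 one_pos)
    (Tendsto.const_mul_atTop (by norm_num) (Real.tendsto_sqrt_atTop.comp (tendsto_id.const_mul_atTop ha)))
  rw [integral_gaussian_Ioi, div_one] at hint
  have hlim := ((hint.div_const Real.pi).pow 3).const_mul (1 / (a ^ (3 / 2 : ℝ)))
  have hval : 1 / a ^ (3 / 2 : ℝ) * (Real.sqrt Real.pi / 2 / Real.pi) ^ 3 =
      1 / (8 * Real.pi ^ (3 / 2 : ℝ) * a ^ (3 / 2 : ℝ)) := by
    have h32 : Real.pi ^ (3 / 2 : ℝ) = Real.sqrt Real.pi ^ 3 := by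
      rw [Real.sqrt_eq_rpow, ← Real.rpow_natCast, ← Real.rpow_mul Real.pi_pos.le]; norm_num
    have hsq : Real.pi = Real.sqrt Real.pi ^ 2 := (Real.sq_sqrt Real.pi_pos.le).symm
    have hpos : 0 < Real.sqrt Real.pi := Real.sqrt_pos.2 Real.pi_pos
    rw [h32]
    nth_rewrite 2 [hsq]
    field_simp
    ring
  rw [hval] at hlim
  refine hlim.congr' ?_
  filter_upwards [eventually_gt_atTop 0] with β hβ
  have hr : 0 < Real.sqrt (a * β) := Real.sqrt_pos.2 (mul_pos ha hβ)
  have hsub : ∫ t in (0 : ℝ)..3, Real.exp (-(a * β) * t ^ 2) =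
      (Real.sqrt (a * β))⁻¹ * ∫ t in (0 : ℝ)..3 * Real.sqrt (a * β), Real.exp (-1 * t ^ 2) := by
    have := intervalIntegral.integral_comp_mul_left (f := fun t : ℝ => Real.exp (-1 * t ^ 2))
      (a := 0) (b := 3) hr.ne'
    simp only [mul_zero, smul_eq_mul] at this
    rw [mul_comm 3 (Real.sqrt (a * β)), ← this]
    refine intervalIntegral.integral_congr fun t _ => ?_
    simp only [mul_pow, Real.sq_sqrt (mul_pos ha hβ).le]
    ring_nf
  have h32 : Real.sqrt (a * β) ^ 3 = a ^ (3 / 2 : ℝ) * β ^ (3 / 2 : ℝ) := by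
    rw [← Real.mul_rpow ha.le hβ.le, Real.sqrt_eq_rpow, ← Real.rpow_natCast,
      ← Real.rpow_mul (mul_pos ha hβ).le]
    norm_num
  have : 0 < a ^ (3 / 2 : ℝ) := Real.rpow_pos_of_pos ha _
  have : 0 < β ^ (3 / 2 : ℝ) := Real.rpow_pos_of_pos hβ _
  rw [gauss1, hsub, div_pow, div_pow, mul_pow, inv_pow, h32]
  field_simp

theorem zeta_series :
    Summable (fun j : ℕ => 1 / ((j : ℝ) + 1) ^ (3 / 2 : ℝ)) ∧
      (riemannZeta (3 / 2)).re = ∑' j : ℕ, 1 / ((j : ℝ) + 1) ^ (3 / 2 : ℝ) := by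
  refine ⟨?_, ?_⟩
  · have := (Real.summable_one_div_nat_rpow (p := 3 / 2)).2 (by norm_num)
    simpa using (summable_nat_add_iff 1).2 this
  · rw [zeta_eq_tsum_one_div_nat_add_one_cpow (by norm_num)]
    rw [← Complex.ofReal_re (∑' j : ℕ, 1 / ((j : ℝ) + 1) ^ (3 / 2 : ℝ)), Complex.ofReal_tsum]
    congr 1
    refine tsum_congr fun j => ?_
    rw [Complex.ofReal_div, Complex.ofReal_cpow (by positivity)]
    norm_num

theorem bloch_lower (n : ℕ) (hn : 1 ≤ n) :
    ∀ ε : ℝ, 0 < ε → ∀ᶠ β in atTop, blochConst n - ε ≤ β ^ (3 / 2 : ℝ) * (spin n - mag n β) := by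
  intro ε hε
  have hspin : 0 < spin n := by
    have : (1 : ℝ) ≤ n := by exact_mod_cast hn
    rw [spin]; positivity
  set K : ℝ := 8 * Real.pi ^ (3 / 2 : ℝ) * spin n ^ (3 / 2 : ℝ) with hK
  have hKpos : 0 < K := by rw [hK]; positivity
  obtain ⟨hsum, hzeta⟩ := zeta_series
  set Z : ℝ := ∑' j : ℕ, 1 / ((j : ℝ) + 1) ^ (3 / 2 : ℝ) with hZ
  have hB : blochConst n = Z / K := by rw [blochConst, hzeta]
  have hJ := hsum.hasSum.tendsto_sum_nat.eventually (Ioi_mem_nhds (show Z - K * (ε / 3) < Z by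
    nlinarith [mul_pos hKpos hε]))
  obtain ⟨J, hJ⟩ := hJ.exists
  set PJ : ℝ := ∑ j ∈ Finset.range J, 1 / ((j : ℝ) + 1) ^ (3 / 2 : ℝ) with hPJ
  have hJ' : Z / K - ε / 3 < PJ / K := by
    rw [div_sub' hKpos.ne', div_lt_div_iff_of_pos_right hKpos]
    exact hJ
  have hdel : Tendsto (fun η : ℝ => η * η ^ (3 / 2 : ℝ) * (PJ / K)) (𝓝[<] 1) (𝓝 (PJ / K)) := by
    refine tendsto_nhdsWithin_of_tendsto_nhds ?_
    have : ContinuousAt (fun η : ℝ => η * η ^ (3 / 2 : ℝ) * (PJ / K)) 1 := by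
      refine (continuousAt_id.mul ?_).mul continuousAt_const
      exact Real.continuousAt_rpow_const _ _ (Or.inl one_ne_zero)
    simpa using this.tendsto
  have hI : ∀ᶠ η : ℝ in 𝓝[<] 1, η ∈ Set.Ioo (0 : ℝ) 1 :=
    Ioo_mem_nhdsLT one_pos
  obtain ⟨η, hη1, hη2⟩ := ((hdel.eventually (Ioi_mem_nhds
    (show PJ / K - ε / 3 < PJ / K by linarith))).and hI).exists
  have hasym : Tendsto (fun β : ℝ => η * ∑ j ∈ Finset.range J,
      β ^ (3 / 2 : ℝ) * gauss1 ((((j : ℝ) + 1) * spin n / η) * β) ^ 3) atTop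
      (𝓝 (η * η ^ (3 / 2 : ℝ) * (PJ / K))) := by
    have hc := (tendsto_finsetSum (Finset.range J) fun j _ =>
      gauss1_asymp (a := ((j : ℝ) + 1) * spin n / η) (by have := hη2.1; positivity)).const_mul η
    have hval : η * ∑ j ∈ Finset.range J, 1 / (8 * Real.pi ^ (3 / 2 : ℝ) *
        (((j : ℝ) + 1) * spin n / η) ^ (3 / 2 : ℝ)) = η * η ^ (3 / 2 : ℝ) * (PJ / K) := by
      rw [hPJ, mul_assoc, Finset.sum_div, Finset.mul_sum (a := η ^ (3 / 2 : ℝ))]
      congr 1
      refine Finset.sum_congr rfl fun j _ => ?_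
      have := Real.rpow_pos_of_pos hη2.1 (3 / 2)
      have := Real.rpow_pos_of_pos hspin (3 / 2)
      have := Real.rpow_pos_of_pos (show (0 : ℝ) < (j : ℝ) + 1 by positivity) (3 / 2)
      rw [Real.div_rpow (by positivity) hη2.1.le, Real.mul_rpow (by positivity) hspin.le, hK]
      field_simp
    rwa [hval] at hc
  have e1 := hasym.eventually (Ioi_mem_nhds (show η * η ^ (3 / 2 : ℝ) * (PJ / K) - ε / 3 <
    η * η ^ (3 / 2 : ℝ) * (PJ / K) by linarith))
  have e2 := ((tendsto_rpow_atTop (y := (3 / 2 : ℝ)) (by norm_num)).atTop_mul_const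
    (mul_pos (sub_pos.2 hη2.2) hspin)).eventually_ge_atTop (blochConst n)
  filter_upwards [e1, e2, eventually_gt_atTop (0 : ℝ)] with β h1 h2 hβ
  have hb : 0 < β ^ (3 / 2 : ℝ) := Real.rpow_pos_of_pos hβ _
  by_cases hm : mag n β ≤ η * spin n
  · have : β ^ (3 / 2 : ℝ) * ((1 - η) * spin n) ≤ β ^ (3 / 2 : ℝ) * (spin n - mag n β) :=
      mul_le_mul_of_nonneg_left (by linarith) hb.le
    linarith
  · have h3 := mul_le_mul_of_nonneg_left (limit_lower hn hβ (mul_pos hη2.1 hspin) (not_le.1 hm) J) hb.le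
    have h4 : β ^ (3 / 2 : ℝ) * (η * spin n / spin n * ∑ j ∈ Finset.range J,
        gauss1 (((j : ℝ) + 1) * β * spin n ^ 2 / (η * spin n)) ^ 3) =
        η * ∑ j ∈ Finset.range J, β ^ (3 / 2 : ℝ) * gauss1 ((((j : ℝ) + 1) * spin n / η) * β) ^ 3 := by
      rw [mul_div_assoc, div_self hspin.ne', mul_one, ← mul_assoc, mul_comm (β ^ (3 / 2 : ℝ)) η,
        mul_assoc, Finset.mul_sum]
      congr 1
      refine Finset.sum_congr rfl fun j _ => ?_
      congr 3
      have := hη2.1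
      field_simp
    rw [h4] at h3
    rw [hB]
    linarith

end

end Vale.Agent.P361
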